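import Vale.Agent.P260Z.Ob.Geom

/-!
# P260, obstruction, core algebra: definitions
-/

noncomputable section
set_option linter.unusedSectionVars false
variable [Vale.Agent.P215Z.K.Geom]

namespace Vale.Agent.P215Z.K

open MvPolynomial

/-! ### letters -/

/-- The curves on the walls of all colours. -/
structure Letters where
  C : Kl → Type
  fin : ∀ i, Fintype (C i)
  dec : ∀ i, DecidableEq (C i)
  /-- the mark, seen from the strong side -/
  mark : ∀ i, C i → F3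
  /-- own for the strong side -/
  own : ∀ i, C i → Bool
  level : ∀ i, C i → ℕ

attribute [instance] Letters.fin Letters.dec

/-- marks: group elements, and one extra mark for each leg -/
abbrev Mk : Type := F3 ⊕ Lg

namespace Letters
variable (L : Letters)

/-- variables of a wall; `none` is the extra curve -/
abbrev WV (i : Kl) : Type := Option (L.C i) × I2
abbrev Var : Type := Σ l : Lg, L.WV l.1
abbrev P : Type := MvPolynomial L.Var ℚ

/-- mark of a curve seen from the vertex `1` -/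
def cmark (l : Lg) : Option (L.C l.1) → Mk
  | none => Sum.inr l
  | some c => Sum.inl (if l.2 then L.mark l.1 c else (FreeGroup.of l.1)⁻¹ * L.mark l.1 c)

def cown (l : Lg) : Option (L.C l.1) → Bool
  | none => l.2
  | some c => if l.2 then L.own l.1 c else !L.own l.1 c

def clev (i : Kl) : Option (L.C i) → ℕ
  | none => 0
  | some c => L.level i c

def vmark (v : L.Var) : Mk := L.cmark v.1 v.2.1
def vown (v : L.Var) : Bool := L.cown v.1 v.2.1
def vlev (v : L.Var) : ℕ := L.clev v.1.1 v.2.1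

def inc (l : Lg) : MvPolynomial (L.WV l.1) ℚ →ₐ[ℚ] L.P := rename fun w => ⟨l, w⟩

/-- products of two variables with the same mark -/
def NN : Ideal L.P := Ideal.span {f | ∃ v v', L.vmark v = L.vmark v' ∧ f = X v * X v'}

def II (m : Mk) : Ideal L.P := Ideal.span {f | ∃ v, L.vmark v = m ∧ f = X v}

def AA : Ideal L.P := Ideal.span {f | ∃ v, f = X v}

def Low (v : L.Var) : Ideal L.P :=
  Ideal.span {f | ∃ v', L.vmark v' = L.vmark v ∧ L.vlev v' < L.vlev v ∧ f = X v'}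

def sub (n : L.Var → L.P) : L.P →ₐ[ℚ] L.P := aeval fun v => if L.vown v then X v else n v

def sg (l : Lg) : ℚ := if l.2 then -1 else 1

variable (φ : ∀ i, MvPolynomial (L.WV i) ℚ)

def Psi : L.P := ∑ l : Lg, sg l • L.inc l (φ l.1)

/-- the operators `z` of a leg -/
def zl (l : Lg) (b : I2) : MvPolynomial (L.WV l.1) ℚ :=
  if l.2 then X (none, b) else pderiv (none, (b.2, b.1)) (φ l.1)

def zM (n : L.Var → L.P) (l : Lg) : M2 L.P := fun a b => L.sub n (L.inc l (L.zl φ l (a, b)))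

def ZZ (n : L.Var → L.P) (i : Kl) : Ideal L.P :=
  Ideal.span {f | ∃ s a b, f = L.zM φ n (i, s) a b}

def zeta (n : L.Var → L.P) (c : Lg → ℚ) (i : Kl) : M2 L.P :=
  c (i, true) • L.zM φ n (i, true) + c (i, false) • L.zM φ n (i, false)

def DD (n : L.Var → L.P) : Ideal L.P :=
  Ideal.span {f | ∃ v g, L.vown v = false ∧ L.vmark v = Sum.inl g ∧
    ((∃ v', L.vmark v' = Sum.inl g ∧ f = X v' * L.sub n (pderiv v (L.Psi φ))) ∨
      (g = 1 ∧ f = L.sub n (pderiv v (L.Psi φ))))}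

/-- the output of the geometry -/
def Geo : Prop :=
  ∃ (φ : ∀ i, MvPolynomial (L.WV i) ℚ) (n : L.Var → L.P) (c : Lg → ℚ),
    (∀ i, constantCoeff (φ i) = 0) ∧ (∀ l, c l ≠ 0) ∧
    (∀ v, L.vown v = false → n v ∈ L.Low v) ∧
    L.sub n (L.Psi φ) ∈ L.NN ∧
    ∀ a b, (lbK (L.zeta φ n c) : M2 L.P) a b ∈
      L.AA * prK (L.ZZ φ n) ⊔ L.DD φ n ⊔ L.II (Sum.inl 1) ⊔ L.NN

end Letters

/-! ### the abstract net -/

/-- Abstract data from which the contradiction is derived. -/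
structure Net where
  R : Lg → Type
  [cr : ∀ l, CommRing (R l)]
  [ar : ∀ l, Algebra ℚ (R l)]
  M : Lg → Type
  [am : ∀ l, AddCommGroup (M l)]
  [mm : ∀ l, Module ℚ (M l)]
  P : Type
  [cp : CommRing P]
  [ap : Algebra ℚ P]
  inc : ∀ l, R l →ₐ[ℚ] P
  rho : ∀ l, R l →ₐ[ℚ] Module.End ℚ (M l)
  E : P →ₗ[ℚ] MultilinearMap ℚ M ℚ
  phi : ∀ l, R l
  z : ∀ l, I2 → R l
  eps : Lg → ℚ
  a : ∀ l, Ideal (R l)
  N : ∀ l, Submodule ℚ (M l)
  d : ∀ l, M l →ₗ[ℚ] ℚ
  D : Set P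
  c : Lg → ℚ
  eps_ne : ∀ l, eps l ≠ 0
  c_ne : ∀ l, c l ≠ 0
  span : Submodule.span ℚ {h | ∃ f : ∀ l, R l, h = ∏ l, inc l (f l)} = ⊤
  inter : ∀ l f h χ, E (inc l f * h) χ = E h (Function.update χ l (rho l f (χ l)))
  ker : ∀ χ, Cl (fun l => rho l (phi l)) eps (E 1) χ = 0
  supp : ∀ χ, (∀ l, χ l ∈ N l) → E 1 χ = ∏ l, d l (χ l)
  N_stab : ∀ l f, ∀ χ ∈ N l, rho l f χ ∈ N l
  d_a : ∀ l, ∀ f ∈ a l, ∀ χ ∈ N l, d l (rho l f χ) = 0
  im : ∀ h ∈ D, ∀ k, ∃ G : MultilinearMap ℚ M ℚ,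
    ∀ χ, E (h * k) χ = Cl (fun l => rho l (phi l)) eps G χ
  edge : ∀ (i : Kl) (x : M2 ℚ),
    (∀ ξ ∈ Xi (rho (i, false) (phi _)) (fun b => rho (i, false) (z _ b)) (N _) (d _),
      Matrix.trace (x * ξ) = 0) →
    x ∈ Xi (rho (i, true) (phi _)) (fun b => rho (i, true) (z _ b)) (N _) (d _)
  triv : ∀ l, ∃ χ ∈ N l, rho l (phi l) χ = 0 ∧ d l χ = 1 ∧
    ∀ b, rho l (z l b) χ ∈ W1 (rho l (phi l))

attribute [instance] Net.cr Net.ar Net.am Net.mm Net.cp Net.ap

namespace Net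
variable (n : Net)

def zM (l : Lg) : M2 n.P := fun a b => n.inc l (n.z l (a, b))
def zeta (i : Kl) : M2 n.P := n.c (i, true) • n.zM (i, true) + n.c (i, false) • n.zM (i, false)
def ZZ (i : Kl) : Ideal n.P := Ideal.span {f | ∃ s a b, f = n.zM (i, s) a b}
def AA : Ideal n.P := ⨆ l, (n.a l).map (n.inc l)

end Net

end Vale.Agent.P215Z.K
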