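import Vale.Agent.P260Z.Ob.Core.Rho
import Vale.Agent.P215Z.Core.Edge

/-! K6a: the edge lemma for the concrete test modules -/

noncomputable section
set_option linter.unusedSectionVars false
variable [Vale.Agent.P215Z.K.Geom]
namespace Vale.Agent.P215Z.K
open MvPolynomial Classical

namespace K6
variable (L : Letters) (i : Kl)

/-! ### the two sets of positions of a wall -/

theorem sgn_w (w : L.WV i) : L.sgn (i, false) w = -L.sgn (i, true) w := by
  obtain ⟨o, b⟩ := w
  cases o with
  | none => simp [Letters.sgn, Letters.cown]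
  | some c => cases h : L.own i c <;> simp [Letters.sgn, Letters.cown, h]

theorem sgn_none (b : I2) : L.sgn (i, true) (none, b) = 1 := by
  simp [Letters.sgn, Letters.cown]

theorem wS_w (r : L.WV i → ℤ) : L.wS (i, false) r = L.wR (i, true) r := by
  refine Finset.sum_congr rfl fun w _ => ?_
  obtain ⟨o, b⟩ := w
  cases o with
  | none => simp [Letters.wt]
  | some c => cases h : L.own i c <;> simp [Letters.cown, h]

theorem wR_w (r : L.WV i → ℤ) : L.wR (i, false) r = L.wS (i, true) r := by
  refine Finset.sum_congr rfl fun w _ => ?_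
  obtain ⟨o, b⟩ := w
  cases o with
  | none => simp [Letters.cown, Letters.wt]
  | some c => cases h : L.own i c <;> simp [Letters.cown, h]

theorem chg_w (g : F3) (r : L.WV i → ℤ) :
    L.chg (i, false) (Sum.inl ((FreeGroup.of i)⁻¹ * g)) r = -L.chg (i, true) (Sum.inl g) r := by
  rw [Letters.chg, Letters.chg, ← Finset.sum_neg_distrib]
  refine Finset.sum_congr rfl fun w _ => ?_
  rw [sgn_w]
  obtain ⟨o, b⟩ := w
  cases o with
  | none => simp [Letters.cmark]
  | some c => by_cases h : L.mark i c = g <;> simp [Letters.cmark, h]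

theorem chg_inr (s : Bool) (l' : Lg) (r : L.WV i → ℤ) :
    L.chg (i, s) (Sum.inr l') r =
      if l' = (i, s) then ∑ b, L.sgn (i, s) (none, b) * r (none, b) else 0 := by
  rw [Letters.chg, Fintype.sum_prod_type, Fintype.sum_option]
  by_cases h : l' = (i, s)
  · simp [Letters.cmark, h]
  · simp [Letters.cmark, h, Ne.symm h]

theorem chg_inr_s (l' : Lg) (r : L.WV i → ℤ) :
    L.chg (i, true) (Sum.inr l') r = if l' = (i, true) then ∑ b, r (none, b) else 0 := by
  rw [chg_inr, Finset.sum_congr rfl fun b _ => by rw [sgn_none, one_mul]]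

theorem chg_inr_w (l' : Lg) (r : L.WV i → ℤ) :
    L.chg (i, false) (Sum.inr l') r = if l' = (i, false) then -∑ b, r (none, b) else 0 := by
  rw [chg_inr, Finset.sum_congr rfl fun b _ => by rw [sgn_w, sgn_none, neg_one_mul],
    Finset.sum_neg_distrib]

instance finLam' (s : Bool) : Fintype (L.Lam (i, s)) := L.finLam (i, s)

/-- the conditions on the curves -/
def Core (r : L.WV i → ℤ) : Prop :=
  (∀ c b, 0 ≤ r (some c, b)) ∧
    (∀ g, loB (i, true) (Sum.inl g) ≤ L.chg (i, true) (Sum.inl g) r ∧
      L.chg (i, true) (Sum.inl g) r ≤ upB (i, true) (Sum.inl g)) ∧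
    2 * L.wS (i, true) r ≤ L.wR (i, true) r + 2 * L.Cc ∧
      2 * L.wR (i, true) r ≤ L.wS (i, true) r + 2 * L.Cc

variable {L i}

theorem wS_congr {r r' : L.WV i → ℤ} (h : ∀ c b, r (some c, b) = r' (some c, b)) :
    L.wS (i, true) r = L.wS (i, true) r' := by
  refine Finset.sum_congr rfl fun w _ => ?_
  obtain ⟨o, b⟩ := w
  cases o with
  | none => simp [Letters.wt]
  | some c => rw [h]

theorem wR_congr {r r' : L.WV i → ℤ} (h : ∀ c b, r (some c, b) = r' (some c, b)) :
    L.wR (i, true) r = L.wR (i, true) r' := by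
  refine Finset.sum_congr rfl fun w _ => ?_
  obtain ⟨o, b⟩ := w
  cases o with
  | none => simp [Letters.wt]
  | some c => rw [h]

theorem chg_congr {r r' : L.WV i → ℤ} (h : ∀ c b, r (some c, b) = r' (some c, b)) (g : F3) :
    L.chg (i, true) (Sum.inl g) r = L.chg (i, true) (Sum.inl g) r' := by
  refine Finset.sum_congr rfl fun w _ => ?_
  obtain ⟨o, b⟩ := w
  cases o with
  | none => simp [Letters.cmark]
  | some c => rw [h]

theorem core_congr {r r' : L.WV i → ℤ} (h : ∀ c b, r (some c, b) = r' (some c, b)) :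
    Core L i r ↔ Core L i r' := by
  simp only [Core, wS_congr h, wR_congr h, chg_congr h, h]

theorem mem_s {r : L.WV i → ℤ} : r ∈ L.Lam (i, true) ↔
    (∀ b, 0 ≤ r (none, b)) ∧ ∑ b, r (none, b) ≤ 1 ∧ Core L i r := by
  constructor
  · rintro ⟨h0, h1, h2⟩
    refine ⟨fun b => h0 _, ?_, fun c b => h0 _, fun g => h1 _, h2⟩
    have := (h1 (Sum.inr (i, true))).2
    simpa [chg_inr_s, upB] using this
  · rintro ⟨h0, h1, h2, h3, h4⟩
    refine ⟨fun w => ?_, fun m => ?_, h4⟩
    · obtain ⟨o, b⟩ := w
      cases o with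
      | none => exact h0 b
      | some c => exact h2 c b
    · cases m with
      | inl g => exact h3 g
      | inr l' =>
        have h5 : 0 ≤ ∑ b, r (none, b) := Finset.sum_nonneg fun b _ => h0 b
        rw [chg_inr_s]
        by_cases h : l' = (i, true)
        · simpa [h, upB, loB] using ⟨h5, h1⟩
        · simp [h, upB, loB]

theorem bound_iff (g : F3) (a : ℤ) :
    (loB (i, false) (Sum.inl ((FreeGroup.of i)⁻¹ * g)) ≤ -a ∧
      -a ≤ upB (i, false) (Sum.inl ((FreeGroup.of i)⁻¹ * g))) ↔
    (loB (i, true) (Sum.inl g) ≤ a ∧ a ≤ upB (i, true) (Sum.inl g)) := by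
  by_cases h : g ∈ Br (i, true)
  · have h' := (Br_compl i g).1 h
    simp only [loB, upB, if_pos h, if_neg h']
    omega
  · have h' : (FreeGroup.of i)⁻¹ * g ∈ Br (i, false) := by
      by_contra h2
      exact h ((Br_compl i g).2 h2)
    simp only [loB, upB, if_neg h, if_pos h']
    omega

theorem mem_w {r : L.WV i → ℤ} : r ∈ L.Lam (i, false) ↔ (∀ b, r (none, b) = 0) ∧ Core L i r := by
  constructor
  · rintro ⟨h0, h1, h2, h3⟩
    rw [wS_w, wR_w] at h2 h3
    refine ⟨?_, fun c b => h0 _, fun g => ?_, h3, h2⟩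
    · have h4 := (h1 (Sum.inr (i, false))).1
      have h5 : ∑ b, r (none, b) ≤ 0 := by
        simpa [chg_inr_w, loB] using h4
      have h6 : ∑ b, r (none, b) = 0 :=
        le_antisymm h5 (Finset.sum_nonneg fun b _ => h0 _)
      exact fun b => (Finset.sum_eq_zero_iff_of_nonneg fun b _ => h0 (none, b)).1 h6 b
        (Finset.mem_univ b)
    · have := h1 (Sum.inl ((FreeGroup.of i)⁻¹ * g))
      rw [chg_w] at this
      exact (bound_iff g _).1 this
  · rintro ⟨h0, h2, h3, h4, h5⟩
    refine ⟨fun w => ?_, fun m => ?_, ?_, ?_⟩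
    · obtain ⟨o, b⟩ := w
      cases o with
      | none => exact (h0 b).ge
      | some c => exact h2 c b
    · cases m with
      | inl g =>
        obtain ⟨g', rfl⟩ : ∃ g', g = (FreeGroup.of i)⁻¹ * g' :=
          ⟨FreeGroup.of i * g, by rw [inv_mul_cancel_left]⟩
        rw [chg_w]
        exact (bound_iff g' _).2 (h3 g')
      | inr l' =>
        rw [chg_inr_w]
        simp [h0, upB, loB]
    · rw [wS_w, wR_w]
      exact h5
    · rw [wS_w, wR_w]
      exact h4

/-- the unit vectors of the extra curve -/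
def eb (L : Letters) (i : Kl) : Option I2 → L.WV i → ℤ
  | none => 0
  | some b => Pi.single (none, b) 1

theorem eb_some (o : Option I2) (c : L.C i) (b : I2) : eb L i o (some c, b) = 0 := by
  cases o <;> simp [eb]

theorem eb_none (b b' : I2) : eb L i (some b) (none, b') = if b' = b then 1 else 0 := by
  simp [eb, Pi.single_apply]

theorem add_mem_iff {r : L.WV i → ℤ} (h : ∀ b, 0 ≤ r (none, b)) (b : I2) :
    r + eb L i (some b) ∈ L.Lam (i, true) ↔ r ∈ L.Lam (i, false) := by
  have hc : Core L i (r + eb L i (some b)) ↔ Core L i r :=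
    core_congr fun c b' => by rw [Pi.add_apply, eb_some, add_zero]
  have hs : ∑ b', (r + eb L i (some b)) (none, b') = ∑ b', r (none, b') + 1 := by
    simp only [Pi.add_apply, Finset.sum_add_distrib, eb_none]
    simp
  rw [mem_s, mem_w, hc, hs]
  constructor
  · rintro ⟨-, h1, h2⟩
    have h6 : ∑ b, r (none, b) = 0 :=
      le_antisymm (by linarith) (Finset.sum_nonneg fun b _ => h b)
    exact ⟨fun b => (Finset.sum_eq_zero_iff_of_nonneg fun b _ => h b).1 h6 b
      (Finset.mem_univ b), h2⟩
  · rintro ⟨h1, h2⟩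
    refine ⟨fun b' => ?_, by simp [h1], h2⟩
    rw [Pi.add_apply, h1, eb_none]
    split_ifs <;> norm_num

theorem mem_iff_of_zero {r : L.WV i → ℤ} (h : ∀ b, r (none, b) = 0) :
    r ∈ L.Lam (i, true) ↔ r ∈ L.Lam (i, false) := by
  rw [mem_s, mem_w]
  simp [h]

theorem add_mem (x : Option I2 × L.Lam (i, false)) : x.2.1 + eb L i x.1 ∈ L.Lam (i, true) := by
  obtain ⟨o, p⟩ := x
  have h0 := (mem_w.1 p.2).1
  cases o with
  | none =>
    change p.1 + 0 ∈ _
    rw [add_zero]
    exact (mem_iff_of_zero h0).2 p.2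
  | some b => exact (add_mem_iff (fun b => (h0 b).ge) b).2 p.2

/-- the strong positions in terms of the weak positions -/
def qf (x : Option I2 × L.Lam (i, false)) : L.Lam (i, true) := ⟨x.2.1 + eb L i x.1, add_mem x⟩

theorem eb_inj : Function.Injective (eb L i) := by
  intro o o' h
  cases o with
  | none =>
    cases o' with
    | none => rfl
    | some b' => simpa [eb] using congrFun h (none, b')
  | some b =>
    cases o' with
    | none => simpa [eb] using congrFun h (none, b)
    | some b' =>
      have := congrFun h (none, b)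
      rw [eb_none, eb_none, if_pos rfl] at this
      by_cases e : b = b'
      · rw [e]
      · simp [e] at this

theorem qf_bij : Function.Bijective (qf : Option I2 × L.Lam (i, false) → L.Lam (i, true)) := by
  constructor
  · rintro ⟨o, p⟩ ⟨o', p'⟩ h
    have h1 : p.1 + eb L i o = p'.1 + eb L i o' := congrArg Subtype.val h
    have h2 : eb L i o = eb L i o' := by
      funext w
      obtain ⟨c, b⟩ := w
      cases c with
      | none =>
        have := congrFun h1 (none, b)
        rwa [Pi.add_apply, Pi.add_apply, (mem_w.1 p.2).1, (mem_w.1 p'.2).1, zero_add,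
          zero_add] at this
      | some c => rw [eb_some, eb_some]
    rw [h2, add_left_inj] at h1
    exact Prod.ext (eb_inj h2) (Subtype.ext h1)
  · intro r
    obtain ⟨h0, h1, h2⟩ := mem_s.1 r.2
    by_cases h : ∀ b, r.1 (none, b) = 0
    · exact ⟨(none, ⟨r.1, (mem_iff_of_zero h).1 r.2⟩), Subtype.ext (add_zero _)⟩
    · obtain ⟨b, hb⟩ := not_forall.1 h
      have h3 : ∀ b', 0 ≤ (r.1 - eb L i (some b)) (none, b') := fun b' => by
        rw [Pi.sub_apply, eb_none]
        have := h0 b'
        split_ifs with e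
        · subst e
          omega
        · omega
      refine ⟨(some b, ⟨r.1 - eb L i (some b), (add_mem_iff h3 b).1 ?_⟩),
        Subtype.ext (sub_add_cancel _ _)⟩
      rw [sub_add_cancel]
      exact r.2

/-- the bijection -/
def qe (L : Letters) (i : Kl) : Option I2 × L.Lam (i, false) ≃ L.Lam (i, true) :=
  Equiv.ofBijective qf qf_bij

theorem qe_val (o : Option I2) (p : L.Lam (i, false)) : (qe L i (o, p)).1 = p.1 + eb L i o := rfl

/-! ### values -/

theorem val_mem {l : Lg} {r : L.Pos l} (h : r ∈ L.Lam l) (χ : L.Tst l) :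
    L.val l r χ = χ ⟨r, h⟩ := by
  rw [Letters.val, dif_pos h]
  rfl

theorem val_not {l : Lg} {r : L.Pos l} (h : r ∉ L.Lam l) (χ : L.Tst l) : L.val l r χ = 0 := by
  rw [Letters.val, dif_neg h]
  rfl

theorem val_some {r : L.WV i → ℤ} (h : ∀ b, 0 ≤ r (none, b)) (b : I2) (χ : L.Tst (i, true)) :
    L.val (i, true) (r + eb L i (some b)) χ =
      L.val (i, false) r fun p => χ (qe L i (some b, p)) := by
  by_cases hr : r ∈ L.Lam (i, false)
  · rw [val_mem hr, val_mem ((add_mem_iff h b).2 hr)]
    rfl
  · rw [val_not hr, val_not fun h1 => hr ((add_mem_iff h b).1 h1)]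

theorem val_none {r : L.WV i → ℤ} (h : ∀ b, r (none, b) = 0) (χ : L.Tst (i, true)) :
    L.val (i, true) r χ = L.val (i, false) r fun p => χ (qe L i (none, p)) := by
  by_cases hr : r ∈ L.Lam (i, false)
  · rw [val_mem hr, val_mem ((mem_iff_of_zero h).2 hr)]
    exact congrArg χ (Subtype.ext (add_zero _).symm)
  · rw [val_not hr, val_not fun h1 => hr ((mem_iff_of_zero h).1 h1)]

theorem val_sum {l : Lg} (r : L.Pos l) (χ : L.Tst l) :
    L.val l r χ = ∑ p : L.Lam l, if p.1 = r then χ p else 0 := by
  by_cases hr : r ∈ L.Lam l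
  · rw [val_mem hr, Finset.sum_eq_single ⟨r, hr⟩]
    · rw [if_pos rfl]
    · intro p _ hp
      exact if_neg fun e => hp (Subtype.ext e)
    · intro h
      exact absurd (Finset.mem_univ _) h
  · rw [val_not hr]
    exact (Finset.sum_eq_zero fun p _ => if_neg fun e : p.1 = r => hr (e ▸ p.2)).symm

theorem val_adj {l : Lg} (u : L.Pos l) (x y : L.Tst l) :
    ∑ p : L.Lam l, L.val l (p.1 - u) x * y p = ∑ p : L.Lam l, x p * L.val l (p.1 + u) y := by
  simp only [val_sum, Finset.sum_mul, Finset.mul_sum]
  rw [Finset.sum_comm]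
  refine Finset.sum_congr rfl fun p _ => Finset.sum_congr rfl fun p' _ => ?_
  by_cases e : p'.1 = p.1 + u
  · rw [if_pos e, if_pos (by rw [e, add_sub_cancel_right])]
  · rw [if_neg e, if_neg (fun e' => e (by rw [e', sub_add_cancel])), zero_mul, mul_zero]

/-! ### the transposed action -/

/-- the shift with the strong signs -/
def sh (m : L.WV i →₀ ℕ) : L.WV i → ℤ := fun w => L.sgn (i, true) w * m w

theorem sh_none (m : L.WV i →₀ ℕ) (b : I2) : sh m (none, b) = m (none, b) := by
  rw [sh, sgn_none, one_mul]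

/-- the transposed action on the weak tests -/
def rhoT (L : Letters) (i : Kl) :
    MvPolynomial (L.WV i) ℚ →ₗ[ℚ] Module.End ℚ (L.Tst (i, false)) :=
  (basisMonomials (L.WV i) ℚ).constr ℚ fun m =>
    LinearMap.pi fun p : L.Lam (i, false) => L.val (i, false) (p.1 + sh m)

theorem rhoT_monomial (m : L.WV i →₀ ℕ) (c : ℚ) (χ : L.Tst (i, false)) (p : L.Lam (i, false)) :
    rhoT L i (monomial m c) χ p = c * L.val (i, false) (p.1 + sh m) χ := by
  have e : (monomial m c : MvPolynomial (L.WV i) ℚ) = c • basisMonomials (L.WV i) ℚ m := by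
    rw [coe_basisMonomials, smul_monomial, smul_eq_mul, mul_one]
  rw [e, map_smul, rhoT, Module.Basis.constr_basis]
  rfl

theorem rho_s (m : L.WV i →₀ ℕ) (c : ℚ) (χ : L.Tst (i, true)) (p : L.Lam (i, true)) :
    L.rho (i, true) (monomial m c) χ p = c * L.val (i, true) (p.1 + sh m) χ :=
  L.rho_monomial (i, true) m c χ p

theorem rho_w (m : L.WV i →₀ ℕ) (c : ℚ) (χ : L.Tst (i, false)) (p : L.Lam (i, false)) :
    L.rho (i, false) (monomial m c) χ p = c * L.val (i, false) (p.1 - sh m) χ := by
  have e : (fun w => p.1 w + L.sgn (i, false) w * m w) = p.1 - sh m := by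
    funext w
    rw [sgn_w, Pi.sub_apply, sh, neg_mul, sub_eq_add_neg]
  rw [← e]
  exact L.rho_monomial (i, false) m c χ p

theorem adj (f : MvPolynomial (L.WV i) ℚ) (x y : L.Tst (i, false)) :
    L.rho (i, false) f x ⬝ᵥ y = x ⬝ᵥ rhoT L i f y := by
  induction f using MvPolynomial.induction_on' with
  | monomial m c =>
    have e1 : L.rho (i, false) (monomial m c) x ⬝ᵥ y =
        c * ∑ p : L.Lam (i, false), L.val (i, false) (p.1 - sh m) x * y p := by
      rw [dotProduct, Finset.mul_sum]
      exact Finset.sum_congr rfl fun p _ => by rw [rho_w, mul_assoc]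
    have e2 : x ⬝ᵥ rhoT L i (monomial m c) y =
        c * ∑ p : L.Lam (i, false), x p * L.val (i, false) (p.1 + sh m) y := by
      rw [dotProduct, Finset.mul_sum]
      exact Finset.sum_congr rfl fun p _ => by rw [rhoT_monomial, mul_left_comm]
    rw [e1, e2]
    exact congrArg (c * ·) (val_adj (l := (i, false)) (sh m) x y)
  | add f g hf hg =>
    rw [map_add, map_add, LinearMap.add_apply, LinearMap.add_apply, add_dotProduct,
      dotProduct_add, hf, hg]

theorem act_some (f : MvPolynomial (L.WV i) ℚ) (χ : L.Tst (i, true)) (b : I2)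
    (p : L.Lam (i, false)) : L.rho (i, true) f χ (qe L i (some b, p)) =
      rhoT L i f (fun p => χ (qe L i (some b, p))) p := by
  induction f using MvPolynomial.induction_on' with
  | monomial m c =>
    rw [rho_s, rhoT_monomial, qe_val, add_right_comm, val_some]
    intro b'
    rw [Pi.add_apply, (mem_w.1 p.2).1, sh_none]
    positivity
  | add f g hf hg =>
    rw [map_add, map_add, LinearMap.add_apply, LinearMap.add_apply, Pi.add_apply, Pi.add_apply,
      hf, hg]

theorem sh_sub {m : L.WV i →₀ ℕ} {b : I2} (h : m (none, b) ≠ 0) :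
    sh (m - Finsupp.single (none, b) 1) + eb L i (some b) = sh m := by
  funext w
  rw [Pi.add_apply, sh, sh, Finsupp.tsub_apply]
  by_cases e : w = (none, b)
  · subst e
    rw [sgn_none, eb_none, if_pos rfl, Finsupp.single_eq_same]
    omega
  · rw [Finsupp.single_eq_of_ne e, eb, Pi.single_eq_of_ne e, tsub_zero, add_zero]

theorem act_none (f : MvPolynomial (L.WV i) ℚ) (χ : L.Tst (i, true)) (p : L.Lam (i, false)) :
    L.rho (i, true) f χ (qe L i (none, p)) =
      (rhoT L i f (fun p => χ (qe L i (none, p))) +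
        ∑ b : I2, rhoT L i (pderiv (none, b) f) (fun p => χ (qe L i (some b, p)))) p := by
  induction f using MvPolynomial.induction_on' with
  | monomial m c =>
    have h0 := (mem_w.1 p.2).1
    have h1 : ∀ b : I2, rhoT L i (pderiv (none, b) (monomial m c))
        (fun p => χ (qe L i (some b, p))) p =
          c * L.val (i, true) (p.1 + sh m) χ * (m (none, b) : ℚ) := fun b => by
      rw [pderiv_monomial, rhoT_monomial]
      by_cases hb : m (none, b) = 0
      · simp [hb]
      · rw [← val_some, add_assoc, sh_sub hb]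
        · ring
        · intro b'
          rw [Pi.add_apply, h0, sh_none]
          positivity
    have h2 : (qe L i (none, p)).1 = p.1 := add_zero _
    have h3 : ∀ b, (p.1 + sh m) (none, b) = m (none, b) := fun b => by
      rw [Pi.add_apply, h0, sh_none, zero_add]
    rw [rho_s, Pi.add_apply, Finset.sum_apply, rhoT_monomial, h2]
    simp only [h1]
    rw [← Finset.mul_sum, ← Nat.cast_sum]
    by_cases hk : ∀ b, m (none, b) = 0
    · rw [← val_none fun b => by rw [h3, hk, Nat.cast_zero]]
      simp [hk]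
    · have h4 : p.1 + sh m ∉ L.Lam (i, false) := fun h => hk fun b => by
        have := (mem_w.1 h).1 b
        rw [h3] at this
        exact_mod_cast this
      rw [val_not h4, mul_zero, zero_add]
      by_cases h5 : p.1 + sh m ∈ L.Lam (i, true)
      · have h6 := (mem_s.1 h5).2.1
        simp only [h3] at h6
        have h7 : ∑ b : I2, m (none, b) ≤ 1 := by exact_mod_cast h6
        have h8 : ∑ b : I2, m (none, b) ≠ 0 := fun h =>
          hk fun b => Finset.sum_eq_zero_iff.1 h b (Finset.mem_univ b)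
        have h9 : ∑ b : I2, m (none, b) = 1 := by omega
        rw [h9, Nat.cast_one, mul_one]
      · rw [val_not h5, mul_zero, zero_mul]
  | add f g hf hg =>
    rw [map_add, LinearMap.add_apply, Pi.add_apply, hf, hg]
    simp only [map_add, LinearMap.add_apply, Pi.add_apply, Finset.sum_apply,
      Finset.sum_add_distrib]
    ring

theorem act_X (χ : L.Tst (i, true)) (b : I2) (p : L.Lam (i, true)) :
    L.rho (i, true) (X (none, b)) χ p = L.val (i, true) (p.1 + eb L i (some b)) χ := by
  have e : sh (Finsupp.single ((none, b) : L.WV i) 1) = eb L i (some b) := by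
    have := sh_sub (m := Finsupp.single ((none, b) : L.WV i) 1) (b := b) (by simp)
    rw [← this, tsub_self]
    funext w
    simp [sh]
  rw [X, rho_s, e, one_mul]

end K6

namespace Letters
variable (L : Letters)

open K6 in
theorem edge_conc (φ : ∀ i, MvPolynomial (L.WV i) ℚ) (hφ : ∀ i, constantCoeff (φ i) = 0)
    (i : Kl) (x : M2 ℚ)
    (hx : ∀ ξ ∈ Xi (L.rho (i, false) (φ i)) (fun b => L.rho (i, false) (L.zl φ (i, false) b))
      (L.NL _) (L.dL _), Matrix.trace (x * ξ) = 0) :
    x ∈ Xi (L.rho (i, true) (φ i)) (fun b => L.rho (i, true) (L.zl φ (i, true) b))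
      (L.NL _) (L.dL _) := by
  let δ : L.Lam (i, false) := ⟨0, L.zero_mem_lam _⟩
  have hd : ∀ χ : L.Tst (i, false), L.dL (i, false) χ = χ δ := fun χ => val_mem δ.2 χ
  have hw0 : ∀ l : Lg, L.wS l 0 = 0 ∧ L.wR l 0 = 0 := fun l => by simp [wS, wR]
  obtain ⟨χ, hχ, h1, h2⟩ := edge_abs (L.rho (i, false) (φ i)) (rhoT L i (φ i))
    (fun b : I2 => L.rho (i, false) (pderiv (none, b) (φ i)))
    (fun b : I2 => rhoT L i (pderiv (none, b) (φ i))) (adj _) (fun b => adj _)
    (L.rho_nilpotent (i, false) (φ i) (hφ i))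
    (fun b => (Commute.all _ _).map (L.rho (i, false)))
    {p | L.wR (i, false) p.1 < L.wS (i, false) p.1 ∨ ∃ b, p.1 (none, b) ≠ 0} δ
    (by simp [δ, hw0]) (fun b => x b.1 b.2)
    (fun χ hχ ω hω hB => by
      have h := hx (fun a b => (L.rho (i, false) (pderiv (none, (b, a)) (φ i)) χ + ω (b, a)) δ)
        ⟨χ, hχ, fun b => ω (b.2, b.1), fun b => ⟨hω _, hB (b.2, b.1), hd _⟩⟩
      rw [Fintype.sum_prod_type]
      exact h)
    (qe L i) (L.rho (i, true) (φ i)) (act_none _) (act_some _)
  refine ⟨χ, hχ, 0, fun b => ⟨Submodule.zero_mem _, ?_, ?_⟩⟩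
  · intro p hp
    change (L.rho (i, true) (X (none, b)) χ + 0) p = 0
    rw [add_zero, act_X, val_some (mem_s.1 p.2).1]
    by_cases h3 : p.1 ∈ L.Lam (i, false)
    · have h4 := (mem_w.1 h3).1
      have h5 : L.wR (i, true) p.1 < L.wS (i, true) p.1 :=
        hp.resolve_right fun ⟨b', hb'⟩ => hb' (h4 b')
      rw [val_mem h3]
      refine h2 b _ ?_ ?_
      · rintro (h6 | ⟨b', hb'⟩)
        · rw [wR_w, wS_w] at h6
          exact lt_asymm h5 h6
        · exact hb' (h4 b')
      · intro h6
        have h7 : p.1 = 0 := congrArg Subtype.val h6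
        rw [h7, (hw0 _).1, (hw0 _).2] at h5
        exact lt_irrefl _ h5
    · exact val_not h3 _
  · change L.val (i, true) 0 (L.rho (i, true) (X (none, b)) χ + 0) = _
    rw [add_zero, val_mem (L.zero_mem_lam _), act_X, val_some fun _ => le_rfl]
    exact (val_mem δ.2 _).trans (h1 b)

end Letters
end Vale.Agent.P215Z.K
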