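import Vale.Agent.P260Z.Ob.Core.Rho

/-! K4b, first part: degrees of monomials, admissible operators -/

noncomputable section
set_option linter.unusedSectionVars false
variable [Vale.Agent.P215Z.K.Geom]
namespace Vale.Agent.P215Z.K
open MvPolynomial Classical

namespace Epx

section up
variable {σ : Type} [Fintype σ]

/-- a linear form on exponents -/
def lf (c : σ → ℤ) (a : σ →₀ ℕ) : ℤ := ∑ v, c v * a v

theorem lf_add (c : σ → ℤ) (a b : σ →₀ ℕ) : lf c (a + b) = lf c a + lf c b := by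
  simp only [lf, Finsupp.add_apply, Nat.cast_add, mul_add, Finset.sum_add_distrib]

theorem lf_zero (c : σ → ℤ) : lf c 0 = 0 := by simp [lf]

theorem lf_single (c : σ → ℤ) (v : σ) : lf c (Finsupp.single v 1) = c v := by
  rw [lf, Finset.sum_eq_single v (fun w _ h => by simp [Finsupp.single_eq_of_ne h]) (by simp)]
  simp

theorem lf_nonneg {c : σ → ℤ} (hc : ∀ v, 0 ≤ c v) (a : σ →₀ ℕ) : 0 ≤ lf c a :=
  Finset.sum_nonneg fun v _ => mul_nonneg (hc v) (Nat.cast_nonneg _)

omit [Fintype σ]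

theorem exists_of_mul {f g : MvPolynomial σ ℚ} {c : σ →₀ ℕ} (h : c ∈ (f * g).support) :
    ∃ a ∈ f.support, ∃ b ∈ g.support, a + b = c := Finset.mem_add.1 (support_mul f g h)

/-- polynomials all of whose exponents have an upward closed property -/
def Up (U : (σ →₀ ℕ) → Prop) (hU : ∀ a b, U a → U (b + a)) : Ideal (MvPolynomial σ ℚ) where
  carrier := {f | ∀ a ∈ f.support, U a}
  zero_mem' := by simp
  add_mem' hf hg a ha := (Finset.mem_union.1 (support_add ha)).elim (hf a) (hg a)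
  smul_mem' c f hf a ha := by
    obtain ⟨x, -, y, hy, rfl⟩ := exists_of_mul ha
    exact hU _ _ (hf y hy)

theorem X_supp {v : σ} {a : σ →₀ ℕ} (h : a ∈ (X v : MvPolynomial σ ℚ).support) :
    a = Finsupp.single v 1 := by
  rwa [support_X, Finset.mem_singleton] at h

end up

variable {L : Letters}

/-- indicator of a mark -/
def cQ (m : Mk) (v : L.Var) : ℤ := if L.vmark v = m then 1 else 0

/-- the weight of a variable -/
def cW (v : L.Var) : ℤ := L.wt v.1.1 v.2.1

theorem cQ_nonneg (m : Mk) (v : L.Var) : 0 ≤ cQ m v := by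
  unfold cQ; split_ifs <;> norm_num

theorem cW_nonneg (v : L.Var) : 0 ≤ cW v := Nat.cast_nonneg _

theorem cW_le (v : L.Var) : cW v ≤ (bs : ℤ) ^ L.lmax := by
  obtain ⟨l, _ | c, b⟩ := v
  · simp [cW, Letters.wt]
  · simp only [cW, Letters.wt]
    exact_mod_cast Nat.pow_le_pow_right bs_pos (Nat.sub_le _ _)

theorem cW_low {v v' : L.Var} (h : L.vlev v' < L.vlev v) (hm : L.vmark v' = L.vmark v) :
    (bs : ℤ) * cW v ≤ cW v' := by
  have h1 : L.vlev v ≤ L.lmax := Finset.le_sup (f := L.vlev) (Finset.mem_univ v)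
  obtain ⟨l, _ | c, b⟩ := v
  · simp [Letters.vlev, Letters.clev] at h
  obtain ⟨l', _ | c', b'⟩ := v'
  · simp [Letters.vmark, Letters.cmark] at hm
  simp only [Letters.vlev, Letters.clev] at h h1
  simp only [cW, Letters.wt]
  rw [← Nat.cast_mul, Nat.cast_le, ← pow_succ']
  exact Nat.pow_le_pow_right bs_pos (by omega)

variable {n : L.Var → L.P} (hn : ∀ v, L.vown v = false → n v ∈ L.Low v)

theorem sub_X_own {v : L.Var} (h : L.vown v = true) : L.sub n (X v) = X v := by
  rw [Letters.sub, aeval_X, if_pos h]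

include hn in
theorem sub_X_supp (v : L.Var) : ∀ a ∈ (L.sub n (X v)).support, (∀ m, cQ m v ≤ lf (cQ m) a) ∧
    (if L.vown v then cW v else (bs : ℤ) * cW v) ≤ lf cW a := by
  cases h : L.vown v
  · have h1 : L.Low v ≤ Up (fun a => (∀ m, cQ m v ≤ lf (cQ m) a) ∧ (bs : ℤ) * cW v ≤ lf cW a)
        fun a b ha => ⟨fun m => by
          rw [lf_add]; linarith [ha.1 m, lf_nonneg (cQ_nonneg m) b],
          by rw [lf_add]; linarith [ha.2, lf_nonneg cW_nonneg b]⟩ := by
      refine Ideal.span_le.2 ?_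
      rintro _ ⟨v', h1, h2, rfl⟩ a ha
      obtain rfl := X_supp ha
      exact ⟨fun m => by rw [lf_single, cQ, cQ, h1], by rw [lf_single]; exact cW_low h2 h1⟩
    rw [Letters.sub, aeval_X, h]
    exact h1 (hn v h)
  · intro a ha
    rw [sub_X_own h] at ha
    obtain rfl := X_supp ha
    exact ⟨fun m => by rw [lf_single], by simp [lf_single]⟩

include hn in
theorem sub_supp' (b : L.Var →₀ ℕ) : ∀ a ∈ (L.sub n (monomial b 1)).support,
    (∀ m, lf (cQ m) b ≤ lf (cQ m) a) ∧
      lf (fun v => if L.vown v then cW v else (bs : ℤ) * cW v) b ≤ lf cW a := by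
  have key : ∀ (v : L.Var) (b : L.Var →₀ ℕ), (∀ a ∈ (L.sub n (monomial b 1)).support,
      (∀ m, lf (cQ m) b ≤ lf (cQ m) a) ∧
        lf (fun v => if L.vown v then cW v else (bs : ℤ) * cW v) b ≤ lf cW a) →
      ∀ k : ℕ, ∀ a ∈ (L.sub n (monomial (Finsupp.single v k + b) 1)).support,
      (∀ m, lf (cQ m) (Finsupp.single v k + b) ≤ lf (cQ m) a) ∧
        lf (fun v => if L.vown v then cW v else (bs : ℤ) * cW v) (Finsupp.single v k + b) ≤ lf cW a := by
    intro v b hb k
    induction k with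
    | zero => simpa using hb
    | succ k ih =>
      intro a ha
      rw [add_comm k, Finsupp.single_add, add_assoc] at ha ⊢
      rw [monomial_single_add, pow_one, map_mul] at ha
      obtain ⟨x, hx, y, hy, rfl⟩ := exists_of_mul ha
      have h1 := sub_X_supp hn v x hx
      have h2 := ih y hy
      exact ⟨fun m => by rw [lf_add, lf_add _ x, lf_single]; exact add_le_add (h1.1 m) (h2.1 m),
        by rw [lf_add, lf_add _ x, lf_single]; exact add_le_add h1.2 h2.2⟩
  induction b using Finsupp.induction with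
  | zero =>
    intro a _
    exact ⟨fun m => by rw [lf_zero]; exact lf_nonneg (cQ_nonneg m) a,
      by rw [lf_zero]; exact lf_nonneg cW_nonneg a⟩
  | single_add v k b _ _ ih => exact key v b ih k

include hn in
theorem sub_supp {b : L.Var →₀ ℕ} (hb : ∀ v, L.vown v = true → b v = 0) :
    ∀ a ∈ (L.sub n (monomial b 1)).support,
      (∀ m, lf (cQ m) b ≤ lf (cQ m) a) ∧ (bs : ℤ) * lf cW b ≤ lf cW a := fun a ha => by
  refine ⟨(sub_supp' hn b a ha).1, le_of_eq_of_le ?_ (sub_supp' hn b a ha).2⟩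
  rw [lf, lf, Finset.mul_sum]
  refine Finset.sum_congr rfl fun v _ => ?_
  split_ifs with h
  · simp [hb v h]
  · ring

/-- admissible operators -/
structure Adm (T : L.P →ₗ[ℚ] L.P) : Prop where
  own : ∀ v, L.vown v = true → ∀ y, T (X v * y) = X v * T y
  supp : ∀ b : L.Var →₀ ℕ, (∀ v, L.vown v = true → b v = 0) → ∀ a ∈ (T (monomial b 1)).support,
    (∀ m, lf (cQ m) b - (if m = Sum.inl 1 then 1 else 0) ≤ lf (cQ m) a) ∧
      (bs : ℤ) * lf cW b - (bs : ℤ) * bs ^ L.lmax ≤ lf cW a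

include hn in
theorem mul_sub_supp (h : L.P) {b : L.Var →₀ ℕ} (hb : ∀ v, L.vown v = true → b v = 0) :
    ∀ a ∈ (h * L.sub n (monomial b 1)).support,
      (∀ m, lf (cQ m) b ≤ lf (cQ m) a) ∧ (bs : ℤ) * lf cW b ≤ lf cW a := fun a ha => by
  obtain ⟨x, -, y, hy, rfl⟩ := exists_of_mul ha
  have h1 := sub_supp hn hb y hy
  exact ⟨fun m => by rw [lf_add]; linarith [h1.1 m, lf_nonneg (cQ_nonneg m) x],
    by rw [lf_add]; linarith [h1.2, lf_nonneg cW_nonneg x]⟩

include hn in
theorem adm_sub (h : L.P) : Adm (LinearMap.mulLeft ℚ h ∘ₗ (L.sub n).toLinearMap) where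
  own v hv y := by
    change h * L.sub n (X v * y) = X v * (h * L.sub n y)
    rw [map_mul, sub_X_own hv, mul_left_comm]
  supp b hb a ha := by
    have h1 := mul_sub_supp hn h hb a ha
    refine ⟨fun m => ?_, ?_⟩
    · have := h1.1 m
      split_ifs <;> linarith
    · have : (0 : ℤ) ≤ (bs : ℤ) * bs ^ L.lmax := by positivity
      linarith [h1.2]

include hn in
theorem adm_der (k x : L.P) {v : L.Var} (hv : L.vown v = false)
    (hx : ∀ a ∈ x.support, ∀ m, cQ m v - (if m = Sum.inl 1 then 1 else 0) ≤ lf (cQ m) a) :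
    Adm (LinearMap.mulLeft ℚ (k * x) ∘ₗ (L.sub n).toLinearMap ∘ₗ (pderiv v).toLinearMap) where
  own w hw y := by
    change k * x * L.sub n (pderiv v (X w * y)) = X w * (k * x * L.sub n (pderiv v y))
    rw [pderiv_mul, pderiv_X_of_ne (by rintro rfl; simp [hv] at hw), zero_mul, zero_add, map_mul,
      sub_X_own hw, mul_left_comm]
  supp b hb a ha := by
    change a ∈ (k * x * L.sub n (pderiv v (monomial b 1))).support at ha
    rw [pderiv_monomial, one_mul] at ha
    rcases Nat.eq_zero_or_pos (b v) with h0 | h0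
    · simp [h0] at ha
    obtain ⟨b', rfl⟩ : ∃ b', b = b' + Finsupp.single v 1 :=
      ⟨_, (tsub_add_cancel_of_le (Finsupp.single_le_iff.2 h0)).symm⟩
    rw [add_tsub_cancel_right, ← mul_one (Nat.cast _), ← C_mul_monomial, map_mul, mul_comm k,
      mul_assoc, ← mul_assoc k] at ha
    obtain ⟨y, hy, z, hz, rfl⟩ := exists_of_mul ha
    have h1 := mul_sub_supp hn _ (fun w hw => by
      have := hb w hw
      rw [Finsupp.add_apply] at this
      omega) z hz
    refine ⟨fun m => ?_, ?_⟩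
    · rw [lf_add, lf_add, lf_single]
      linarith [h1.1 m, hx y hy m]
    · rw [lf_add, lf_add, lf_single]
      linarith [h1.2, mul_le_mul_of_nonneg_left (cW_le v) (Int.natCast_nonneg bs),
        lf_nonneg cW_nonneg y]

theorem ownPart_apply (p : ∀ l, L.Pos l) (v : L.Var) :
    L.ownPart p v = if L.vown v then (p v.1 v.2).toNat else 0 := rfl

theorem envPart_apply (p : ∀ l, L.Pos l) (v : L.Var) :
    L.envPart p v = if L.vown v then 0 else (p v.1 v.2).toNat := rfl

theorem envPart_own (p : ∀ l, L.Pos l) (v : L.Var) (h : L.vown v = true) : L.envPart p v = 0 :=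
  if_pos h

section pos
variable {p : ∀ l, L.Pos l} (hp : ∀ l w, 0 ≤ p l w)
include hp

theorem cast_ownPart (l : Lg) (w : L.WV l.1) :
    (L.ownPart p ⟨l, w⟩ : ℤ) = if L.cown l w.1 then p l w else 0 := by
  change ((if L.cown l w.1 then (p l w).toNat else 0 : ℕ) : ℤ) = _
  split_ifs
  exacts [Int.toNat_of_nonneg (hp l w), rfl]

theorem cast_envPart (l : Lg) (w : L.WV l.1) :
    (L.envPart p ⟨l, w⟩ : ℤ) = if L.cown l w.1 then 0 else p l w := by
  change ((if L.cown l w.1 then 0 else (p l w).toNat : ℕ) : ℤ) = _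
  split_ifs
  exacts [rfl, Int.toNat_of_nonneg (hp l w)]

theorem sum_chg (m : Mk) :
    ∑ l, L.chg l m (p l) = lf (cQ m) (L.ownPart p) - lf (cQ m) (L.envPart p) := by
  rw [lf, lf, ← Finset.sum_sub_distrib, Fintype.sum_sigma]
  refine Finset.sum_congr rfl fun l _ => Finset.sum_congr rfl fun w _ => ?_
  rw [cast_ownPart hp, cast_envPart hp, Letters.sgn]
  by_cases h : L.cmark l w.1 = m
  · rw [if_pos h, show cQ m (⟨l, w⟩ : L.Var) = 1 from if_pos h]
    split_ifs <;> ring
  · rw [if_neg h, show cQ m (⟨l, w⟩ : L.Var) = 0 from if_neg h]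
    ring

theorem sum_wS : ∑ l, L.wS l (p l) = lf cW (L.ownPart p) := by
  rw [lf, Fintype.sum_sigma]
  refine Finset.sum_congr rfl fun l _ => Finset.sum_congr rfl fun w _ => ?_
  rw [cast_ownPart hp, cW]
  split_ifs <;> ring

theorem sum_wR : ∑ l, L.wR l (p l) = lf cW (L.envPart p) := by
  rw [lf, Fintype.sum_sigma]
  refine Finset.sum_congr rfl fun l _ => Finset.sum_congr rfl fun w _ => ?_
  rw [cast_envPart hp, cW]
  split_ifs <;> ring

theorem Adm.pos {T : L.P →ₗ[ℚ] L.P} (hT : Adm T) (h0 : L.ET T p ≠ 0) :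
    (∀ m, -(if m = Sum.inl 1 then 1 else 0) ≤ ∑ l, L.chg l m (p l)) ∧
      (bs : ℤ) * ∑ l, L.wR l (p l) - (bs : ℤ) * bs ^ L.lmax ≤ ∑ l, L.wS l (p l) := by
  have h := hT.supp _ (envPart_own p) _ (mem_support_iff.2 h0)
  refine ⟨fun m => ?_, by rw [sum_wS hp, sum_wR hp]; exact h.2⟩
  rw [sum_chg hp]
  linarith [h.1 m]

end pos

theorem upB_nonneg (l : Lg) (m : Mk) : 0 ≤ upB l m := by
  cases m <;> simp only [upB] <;> split_ifs <;> norm_num

theorem upB_le (l : Lg) (m : Mk) : upB l m ≤ 1 := by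
  cases m <;> simp only [upB] <;> split_ifs <;> norm_num

theorem upB_uniq {l l' : Lg} {m : Mk} (h : upB l m ≠ 0) (h' : upB l' m ≠ 0) : l = l' := by
  cases m with
  | inl g =>
    simp only [upB, ne_eq, ite_eq_right_iff, one_ne_zero, imp_false, not_not] at h h'
    exact Br_disjoint h h'
  | inr k =>
    simp only [upB, ne_eq, ite_eq_right_iff, one_ne_zero, imp_false, not_not] at h h'
    exact h.1.symm.trans h'.1

theorem upB_one (l : Lg) : upB l (Sum.inl 1) = 0 := if_neg (one_notMem_Br l)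

theorem sum_upB (s : Finset Lg) (m : Mk) :
    ∑ l ∈ s, upB l m ≤ 1 - if m = Sum.inl 1 then 1 else 0 := by
  split_ifs with h
  · simp [h, upB_one]
  by_cases h1 : ∃ l ∈ s, upB l m ≠ 0
  · obtain ⟨l, hl, h1⟩ := h1
    rw [Finset.sum_eq_single_of_mem l hl fun l' _ hne => by_contra fun h2 => hne (upB_uniq h2 h1)]
    simpa using upB_le l m
  · rw [Finset.sum_eq_zero fun l hl => by_contra fun h2 => h1 ⟨l, hl, h2⟩]
    norm_num

/-- an operator whose values have too much charge gives the zero functional -/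
theorem EE_eq_zero {T : L.P →ₗ[ℚ] L.P} (h : ∀ b : L.Var →₀ ℕ, (∀ v, L.vown v = true → b v = 0) →
    ∀ a ∈ (T (monomial b 1)).support, (∃ v, L.vown v = false ∧ a v ≠ 0) ∨
      ∃ m, lf (cQ m) b + 2 - (if m = Sum.inl 1 then 1 else 0) ≤ lf (cQ m) a) : L.EE T = 0 := by
  refine MultilinearMap.ext fun χ => ?_
  rw [Letters.EE_apply]
  refine Finset.sum_eq_zero fun p _ => mul_eq_zero_of_left (by_contra fun h0 => ?_) _
  rcases h _ (envPart_own _) _ (mem_support_iff.2 h0) with ⟨v, h1, h2⟩ | ⟨m, hm⟩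
  · simp [ownPart_apply, h1] at h2
  · have h1 := sum_chg (p := fun l => (p l).1) (fun l => (p l).2.1) m
    have h2 : ∑ l, L.chg l m (p l).1 ≤ ∑ l, upB l m :=
      Finset.sum_le_sum fun l _ => ((p l).2.2.1 m).2
    linarith [sum_upB Finset.univ m]

end Epx
end Vale.Agent.P215Z.K
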