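import Vale.Agent.P260Z.Ob.Core.EpA

/-! K4b, second part: the intertwining property -/

noncomputable section
set_option linter.unusedSectionVars false
variable [Vale.Agent.P215Z.K.Geom]
namespace Vale.Agent.P215Z.K
open MvPolynomial Classical

namespace Epx

variable {L : Letters} {T : L.P →ₗ[ℚ] L.P}

theorem sgn_mul_self (l : Lg) (w : L.WV l.1) : L.sgn l w * L.sgn l w = 1 := by
  unfold Letters.sgn; split_ifs <;> norm_num

theorem Adm.mono (hT : Adm T) (a : L.Var →₀ ℕ) (ha : ∀ v, L.vown v = false → a v = 0) (y : L.P) :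
    T (monomial a 1 * y) = monomial a 1 * T y := by
  induction a using Finsupp.induction_linear generalizing y with
  | zero => simp
  | add a b iha ihb =>
    have h : ∀ v, L.vown v = false → a v = 0 ∧ b v = 0 := fun v hv => by
      simpa using ha v hv
    rw [← mul_one (1 : ℚ), ← monomial_mul, mul_assoc, iha fun v hv => (h v hv).1,
      ihb fun v hv => (h v hv).2, mul_assoc]
  | single v k =>
    rw [← X_pow_eq_monomial]
    cases hv : L.vown v
    · obtain rfl : k = 0 := by simpa using ha v hv
      simp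
    · clear ha
      induction k with
      | zero => simp
      | succ k ih => rw [pow_succ', mul_assoc, hT.own v hv, ih, mul_assoc]

/-- the shifted position -/
def sh (M : L.Var →₀ ℕ) (p : ∀ l, L.Pos l) : ∀ l, L.Pos l := fun l w => p l w - L.sgn l w * M ⟨l, w⟩

theorem ET_mul (hT : Adm T) (M : L.Var →₀ ℕ) {p : ∀ l, L.Pos l} (hp : ∀ l w, 0 ≤ p l w) :
    L.ET (T ∘ₗ LinearMap.mulLeft ℚ (monomial M 1)) p =
      if ∀ l w, 0 ≤ sh M p l w then L.ET T (sh M p) else 0 := by
  have h1 : monomial M 1 * monomial (L.envPart p) (1 : ℚ) =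
      monomial (M.filter fun v => L.vown v = true) 1 *
        monomial ((M.filter fun v => ¬ L.vown v = true) + L.envPart p) 1 := by
    rw [monomial_mul, monomial_mul, ← add_assoc, Finsupp.filter_add_filter_not]
  have h2 : M.filter (fun v => L.vown v = true) ≤ L.ownPart p ↔ ∀ l w, 0 ≤ sh M p l w := by
    rw [Finsupp.le_def, Sigma.forall]
    refine forall₂_congr fun l w => ?_
    have h3 := hp l w
    rw [← Nat.cast_le (α := ℤ), cast_ownPart hp, sh, Letters.sgn, Finsupp.filter_apply]
    by_cases h : L.cown l w.1 = true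
    · rw [if_pos h, if_pos h, if_pos (show L.vown ⟨l, w⟩ = true from h)]
      omega
    · rw [if_neg h, if_neg h, if_neg (show ¬ L.vown ⟨l, w⟩ = true from h)]
      omega
  rw [Letters.ET, LinearMap.comp_apply, LinearMap.mulLeft_apply, h1,
    hT.mono _ fun v hv => Finsupp.filter_apply_neg _ _ (by simp [hv]), coeff_monomial_mul', one_mul]
  by_cases h : ∀ l w, 0 ≤ sh M p l w
  · rw [if_pos h, if_pos (h2.2 h), Letters.ET]
    congr 1
    · refine Finsupp.ext fun ⟨l, w⟩ => Nat.cast_injective (R := ℤ) ?_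
      rw [Finsupp.tsub_apply, Nat.cast_sub (h2.2 h _), cast_ownPart hp, cast_ownPart h, sh,
        Letters.sgn, Finsupp.filter_apply]
      by_cases h : L.cown l w.1 = true
      · simp only [if_pos h, if_pos (show L.vown ⟨l, w⟩ = true from h), one_mul]
      · simp only [if_neg h, if_neg (show ¬ L.vown ⟨l, w⟩ = true from h)]
        rfl
    · congr 3
      refine Finsupp.ext fun ⟨l, w⟩ => Nat.cast_injective (R := ℤ) ?_
      rw [Finsupp.add_apply, Nat.cast_add, cast_envPart hp, cast_envPart h, sh,
        Letters.sgn, Finsupp.filter_apply]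
      by_cases h : L.cown l w.1 = true
      · simp only [if_pos h, if_neg (not_not.2 (show L.vown ⟨l, w⟩ = true from h))]
        rfl
      · simp only [if_neg h, if_pos (show ¬ L.vown ⟨l, w⟩ = true from h)]
        ring
  · rw [if_neg h, if_neg (mt h2.1 h)]

theorem sh_eq (l : Lg) (m : L.WV l.1 →₀ ℕ) (p : ∀ l, L.Pos l) :
    sh (m.mapDomain (Sigma.mk l)) p = Function.update p l fun w => p l w - L.sgn l w * m w := by
  funext l' w
  by_cases h : l' = l
  · subst h
    rw [Function.update_self, sh, Finsupp.mapDomain_apply sigma_mk_injective]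
  · rw [Function.update_of_ne h, sh, Finsupp.mapDomain_of_notMem_range, Nat.cast_zero, mul_zero,
      sub_zero]
    rintro ⟨w', hw⟩
    exact h (congrArg Sigma.fst hw).symm

theorem wS_nonneg {l : Lg} {q : L.Pos l} (hq : ∀ w, 0 ≤ q w) : 0 ≤ L.wS l q :=
  Finset.sum_nonneg fun w _ => by
    have := hq w
    split_ifs <;> positivity

theorem wR_nonneg {l : Lg} {q : L.Pos l} (hq : ∀ w, 0 ≤ q w) : 0 ≤ L.wR l q :=
  Finset.sum_nonneg fun w _ => by
    have := hq w
    split_ifs <;> positivity

theorem chg_inr {l l' : Lg} (h : l' ≠ l) (q : L.Pos l) : L.chg l (Sum.inr l') q = 0 :=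
  Finset.sum_eq_zero fun w _ => if_neg (by
    obtain ⟨_ | c, b⟩ := w
    · simpa [Letters.cmark] using h.symm
    · simp [Letters.cmark])

theorem sum_update {f : ∀ l, L.Pos l → ℤ} (p : ∀ l, L.Pos l) (l : Lg) (q : L.Pos l) :
    ∑ l', f l' (Function.update p l q l') = f l q + ∑ l' ∈ Finset.univ.erase l, f l' (p l') := by
  rw [← Finset.add_sum_erase _ _ (Finset.mem_univ l), Function.update_self]
  exact congrArg _ (Finset.sum_congr rfl fun l' h => by
    rw [Function.update_of_ne (Finset.ne_of_mem_erase h)])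

theorem mem_lam (hT : Adm T) {p : ∀ l, L.Pos l} (hp : ∀ l, p l ∈ L.Lam l) {l : Lg}
    {m : L.WV l.1 →₀ ℕ} (h0 : ∀ w, 0 ≤ p l w - L.sgn l w * m w)
    (h : L.ET T (Function.update p l fun w => p l w - L.sgn l w * m w) ≠ 0) :
    (fun w => p l w - L.sgn l w * m w) ∈ L.Lam l := by
  obtain ⟨h1, h2⟩ := hT.pos (fun l' w => by
    by_cases e : l' = l
    · subst e
      rw [Function.update_self]
      exact h0 w
    · rw [Function.update_of_ne e]
      exact (hp l').1 w) h
  simp only [sum_update (f := fun l => L.chg l _), sum_update (f := L.wS),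
    sum_update (f := L.wR)] at h1 h2
  have hS : L.wS l (fun w => p l w - L.sgn l w * m w) ≤ L.wS l (p l) :=
    Finset.sum_le_sum fun w _ => by
      split_ifs with e
      · beta_reduce
        rw [Letters.sgn, if_pos e, one_mul]
        exact mul_le_mul_of_nonneg_left (sub_le_self _ (Nat.cast_nonneg _)) (Nat.cast_nonneg _)
      · rfl
  have hR : L.wR l (p l) ≤ L.wR l (fun w => p l w - L.sgn l w * m w) :=
    Finset.sum_le_sum fun w _ => by
      split_ifs with e
      · rfl
      · beta_reduce
        rw [Letters.sgn, if_neg e, neg_one_mul, sub_neg_eq_add]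
        exact mul_le_mul_of_nonneg_left (le_add_of_nonneg_right (Nat.cast_nonneg _))
          (Nat.cast_nonneg _)
  refine ⟨h0, fun μ => ⟨?_, le_trans (Finset.sum_le_sum fun w _ => ?_) ((hp l).2.1 μ).2⟩,
    by linarith [(hp l).2.2.1], ?_⟩
  · have h3 := h1 μ
    have h4 : ∑ l' ∈ Finset.univ.erase l, L.chg l' μ (p l') ≤
        ∑ l' ∈ Finset.univ.erase l, upB l' μ := Finset.sum_le_sum fun l' _ => ((hp l').2.1 μ).2
    have h5 : upB l μ ≠ 0 ∨ μ = Sum.inr l → ∑ l' ∈ Finset.univ.erase l, upB l' μ = 0 := fun e =>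
      Finset.sum_eq_zero fun l' hl => by
        rcases e with e | rfl
        · exact by_contra fun e' => Finset.ne_of_mem_erase hl (upB_uniq e' e)
        · exact if_neg fun e' => Finset.ne_of_mem_erase hl e'.1.symm
    cases μ with
    | inl g =>
      by_cases e : g ∈ Br l
      · rw [h5 (Or.inl (by simp [upB, e]))] at h4
        rw [if_neg (by rintro ⟨rfl⟩; exact one_notMem_Br l e)] at h3
        rw [loB, if_pos e]
        linarith
      · rw [loB, if_neg e]
        linarith [sum_upB (Finset.univ.erase l) (Sum.inl g)]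
    | inr k =>
      by_cases e : k = l
      · rw [h5 (Or.inr (by rw [e]))] at h4
        rw [if_neg (by simp)] at h3
        rw [loB]
        linarith
      · rw [chg_inr e, loB]
  · split_ifs
    · rw [mul_sub, ← mul_assoc, sgn_mul_self, one_mul]
      exact sub_le_self _ (Nat.cast_nonneg _)
    · rfl
  · have h3 : ∑ l' ∈ Finset.univ.erase l, L.wS l' (p l') ≤
        ∑ l' ∈ Finset.univ.erase l, ((bs : ℤ) * L.wR l' (p l') + L.Cc) :=
      Finset.sum_le_sum fun l' _ => by
        linarith [(hp l').2.2.1, wR_nonneg (hp l').1, le_mul_of_one_le_left (wR_nonneg (hp l').1)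
          (show (1 : ℤ) ≤ bs by exact_mod_cast bs_pos)]
    rw [Finset.sum_add_distrib, ← Finset.mul_sum, Finset.sum_const,
      Finset.card_erase_of_mem (Finset.mem_univ l)] at h3
    have h4 : (bs : ℤ) * bs ^ L.lmax = L.Cc := by simp [Letters.Cc, pow_succ']
    have h5 : (0 : ℤ) ≤ L.Cc := Int.natCast_nonneg _
    have h6 : (bs : ℤ) = 2 * Geom.m + 4 := by
      rw [bs]
      push_cast
      ring
    have h7 : (Geom.m + 1) * 2 - 1 = 2 * Geom.m + 1 := by omega
    simp only [Finset.card_univ, Fintype.card_prod, Fintype.card_fin, Fintype.card_bool,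
      nsmul_eq_mul, h7] at h3
    push_cast at h3
    rw [h4, h6] at h2
    rw [h6] at h3
    by_contra h8
    have h9 : (0 : ℤ) ≤ Geom.m := Int.natCast_nonneg _
    have h10 := mul_le_mul_of_nonneg_left (not_le.1 h8).le h9
    linarith [wS_nonneg h0, mul_nonneg h9 (wS_nonneg h0), not_le.1 h8]

theorem val_mem {l : Lg} {q : L.Pos l} (h : q ∈ L.Lam l) (χ : L.Tst l) :
    L.val l q χ = χ ⟨q, h⟩ := by
  rw [Letters.val, dif_pos h]; rfl

theorem prod_update (χ : ∀ l, L.Tst l) (l : Lg) (ψ : L.Tst l) (p : ∀ l, L.Lam l) :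
    ∏ l', Function.update χ l ψ l' (p l') =
      ψ (p l) * ∏ l' ∈ Finset.univ.erase l, χ l' (p l') := by
  rw [← Finset.mul_prod_erase _ _ (Finset.mem_univ l), Function.update_self]
  exact congrArg _ (Finset.prod_congr rfl fun l' h => by
    rw [Function.update_of_ne (Finset.ne_of_mem_erase h)])

theorem coe_update (p : ∀ l, L.Lam l) (l : Lg) (q : L.Lam l) :
    (fun l' => (Function.update p l q l').1) = Function.update (fun l' => (p l').1) l q.1 :=
  funext fun l' => by
    by_cases e : l' = l
    · subst e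
      simp
    · simp [Function.update_of_ne e]

theorem EE_mono (hT : Adm T) (l : Lg) (m : L.WV l.1 →₀ ℕ) (χ : ∀ l, L.Tst l) :
    L.EE T (Function.update χ l (L.rho l (monomial m 1) (χ l))) =
      L.EE (T ∘ₗ LinearMap.mulLeft ℚ (L.inc l (monomial m 1))) χ := by
  have hm : ∀ p : ∀ l, L.Lam l, L.ET T (fun l => (p l).1) *
      ∏ l', Function.update χ l (L.rho l (monomial m 1) (χ l)) l' (p l') ≠ 0 →
      (fun w => (p l).1 w + L.sgn l w * m w) ∈ L.Lam l := fun p h => by_contra fun h' => h (by
    rw [prod_update, Letters.rho_monomial, Letters.val, dif_neg h']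
    simp)
  have hval : ∀ (p : ∀ l, L.Lam l) (h : (fun w => (p l).1 w + L.sgn l w * m w) ∈ L.Lam l),
      L.ET T (fun l => (p l).1) *
        ∏ l', Function.update χ l (L.rho l (monomial m 1) (χ l)) l' (p l') =
      L.ET (T ∘ₗ LinearMap.mulLeft ℚ (monomial (m.mapDomain (Sigma.mk l)) 1))
        (fun l' => (Function.update p l ⟨_, h⟩ l').1) *
        ∏ l', χ l' (Function.update p l ⟨_, h⟩ l') := fun p h => by
    have e : sh (m.mapDomain (Sigma.mk l)) (fun l' => (Function.update p l ⟨_, h⟩ l').1) =
        fun l => (p l).1 := by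
      rw [sh_eq, coe_update, Function.update_idem]
      simp
    rw [ET_mul hT _ fun l' => (Function.update p l ⟨_, h⟩ l').2.1, e, if_pos fun l => (p l).2.1,
      prod_update, Letters.rho_monomial, one_mul, val_mem h,
      ← Finset.mul_prod_erase _ _ (Finset.mem_univ l), Function.update_self]
    exact congrArg _ (congrArg _ (Finset.prod_congr rfl fun l' h => by
      rw [Function.update_of_ne (Finset.ne_of_mem_erase h)]))
  rw [Letters.EE_apply, Letters.EE_apply, Letters.inc, rename_monomial]
  refine Finset.sum_bij_ne_zero (fun p _ h => Function.update p l ⟨_, hm p h⟩)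
    (fun _ _ _ => Finset.mem_univ _) (fun p _ _ p' _ _ e => funext fun l' => ?_)
    (fun p _ h => ?_) fun p _ h => hval p (hm p h)
  · by_cases e' : l' = l
    · subst e'
      have h1 := congrFun e l'
      simp only [Function.update_self, Subtype.mk.injEq] at h1
      exact Subtype.ext (funext fun w => add_right_cancel (congrFun h1 w))
    · simpa only [Function.update_of_ne e'] using congrFun e l'
  · have h1 := left_ne_zero_of_mul h
    rw [ET_mul hT _ fun l' => (p l').2.1, sh_eq] at h1
    split_ifs at h1 with h2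
    swap
    · exact (h1 rfl).elim
    have h3 := mem_lam hT (fun l => (p l).2) (by simpa using h2 l) h1
    have h4 : (fun w => (Function.update p l ⟨_, h3⟩ l).1 w + L.sgn l w * m w) = (p l).1 := by
      simp
    have h5 : Function.update (Function.update p l ⟨_, h3⟩) l ⟨_, h4.symm ▸ (p l).2⟩ = p := by
      rw [Function.update_idem]
      exact Function.update_eq_self_iff.2 (Subtype.ext h4)
    exact ⟨Function.update p l ⟨_, h3⟩, Finset.mem_univ _,
      by rw [hval _ (h4.symm ▸ (p l).2), h5]; exact h, h5⟩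

/-- the functional depends linearly on the operator -/
def EEl (χ : ∀ l, L.Tst l) : (L.P →ₗ[ℚ] L.P) →ₗ[ℚ] ℚ where
  toFun T := L.EE T χ
  map_add' T T' := by
    simp only [Letters.EE_apply, Letters.ET, LinearMap.add_apply, coeff_add, add_mul,
      Finset.sum_add_distrib]
  map_smul' c T := by
    simp only [Letters.EE_apply, Letters.ET, LinearMap.smul_apply, coeff_smul, smul_eq_mul,
      Finset.mul_sum, mul_assoc, RingHom.id_apply]

theorem EE_inter (hT : Adm T) (l : Lg) (f : MvPolynomial (L.WV l.1) ℚ) (χ : ∀ l, L.Tst l) :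
    L.EE T (Function.update χ l (L.rho l f (χ l))) =
      L.EE (T ∘ₗ LinearMap.mulLeft ℚ (L.inc l f)) χ := by
  induction f using MvPolynomial.induction_on' with
  | monomial m c =>
    have e : T ∘ₗ LinearMap.mulLeft ℚ (c • L.inc l (monomial m 1)) =
        c • (T ∘ₗ LinearMap.mulLeft ℚ (L.inc l (monomial m 1))) :=
      LinearMap.ext fun y => by simp
    rw [← mul_one c, ← smul_eq_mul, ← smul_monomial, map_smul, map_smul, LinearMap.smul_apply,
      MultilinearMap.map_update_smul, EE_mono hT, e]
    exact ((EEl χ).map_smul _ _).symm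
  | add f g hf hg =>
    have e : T ∘ₗ LinearMap.mulLeft ℚ (L.inc l f + L.inc l g) =
        T ∘ₗ LinearMap.mulLeft ℚ (L.inc l f) + T ∘ₗ LinearMap.mulLeft ℚ (L.inc l g) :=
      LinearMap.ext fun y => by simp [add_mul]
    rw [map_add, map_add, LinearMap.add_apply, MultilinearMap.map_update_add, hf, hg, e]
    exact ((EEl χ).map_add _ _).symm

theorem Cl_EE (hT : Adm T) (φ : ∀ i, MvPolynomial (L.WV i) ℚ) (χ : ∀ l, L.Tst l) :
    Cl (fun l => L.rho l (φ l.1)) Letters.sg (L.EE T) χ =
      L.EE (T ∘ₗ LinearMap.mulLeft ℚ (L.Psi φ)) χ := by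
  have e : T ∘ₗ LinearMap.mulLeft ℚ (L.Psi φ) =
      ∑ l, Letters.sg l • (T ∘ₗ LinearMap.mulLeft ℚ (L.inc l (φ l.1))) :=
    LinearMap.ext fun y => by simp [Letters.Psi, Finset.sum_mul]
  rw [e, Cl]
  refine Eq.trans ?_ (map_sum (EEl χ) _ _).symm
  refine Finset.sum_congr rfl fun l _ => ?_
  rw [map_smul, EE_inter hT]
  rfl

end Epx
end Vale.Agent.P215Z.K
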