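import Vale.Agent.P260Z.Ob.Core.NetF
import Vale.Agent.P260Z.Ob.Core.Triv
import Vale.Agent.P260Z.Ob.Core.EdgeC

/-! K6b: the core theorem -/

noncomputable section
set_option linter.unusedSectionVars false
variable [Vale.Agent.P215Z.K.Geom]
namespace Vale.Agent.P215Z.K

open MvPolynomial Classical

namespace K6

theorem Cl_add {ι : Type} [DecidableEq ι] [Fintype ι] {M : ι → Type} [∀ i, AddCommGroup (M i)]
    [∀ i, Module ℚ (M i)] (t : ∀ i, Module.End ℚ (M i)) (ε : ι → ℚ)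
    (E E' : MultilinearMap ℚ M ℚ) (x : ∀ i, M i) :
    Cl t ε (E + E') x = Cl t ε E x + Cl t ε E' x := by
  simp only [Cl, add_apply, mul_add, Finset.sum_add_distrib]

theorem Cl_zero {ι : Type} [DecidableEq ι] [Fintype ι] {M : ι → Type} [∀ i, AddCommGroup (M i)]
    [∀ i, Module ℚ (M i)] (t : ∀ i, Module.End ℚ (M i)) (ε : ι → ℚ) (x : ∀ i, M i) :
    Cl t ε (0 : MultilinearMap ℚ M ℚ) x = 0 := by
  simp [Cl]

variable (L : Letters) (n : L.Var → L.P) (φ : ∀ i, MvPolynomial (L.WV i) ℚ)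

theorem Ep_zero : L.Ep n 0 = 0 := by
  have := L.Ep_smul n 0 0
  rwa [zero_smul, zero_smul] at this

/-- the elements whose functionals all lie in the image of the total operator -/
def Good : Ideal L.P where
  carrier := {u | ∀ k, ∃ G : MultilinearMap ℚ L.Tst ℚ,
    ∀ χ, L.Ep n (u * k) χ = Cl (fun l => L.rho l (φ l.1)) Letters.sg G χ}
  add_mem' := by
    intro u v hu hv k
    obtain ⟨G, hG⟩ := hu k
    obtain ⟨G', hG'⟩ := hv k
    exact ⟨G + G', fun χ => by
      rw [add_mul, L.Ep_add, add_apply, hG, hG', Cl_add]⟩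
  zero_mem' := fun k => ⟨0, fun χ => by
    rw [zero_mul, Ep_zero, Cl_zero, zero_apply]⟩
  smul_mem' := by
    intro c u hu k
    obtain ⟨G, hG⟩ := hu (c * k)
    exact ⟨G, fun χ => by rw [← hG, smul_eq_mul, mul_comm c u, mul_assoc]⟩

/-- the functional of the net -/
def EL : L.P →ₗ[ℚ] MultilinearMap ℚ L.Tst ℚ where
  toFun h := L.Ep n (L.sub n h)
  map_add' h h' := by rw [map_add, L.Ep_add]
  map_smul' c h := by rw [map_smul, L.Ep_smul, RingHom.id_apply]

variable (c : Lg → ℚ) (hφ : ∀ i, constantCoeff (φ i) = 0) (hc : ∀ l, c l ≠ 0)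
  (hn : ∀ v, L.vown v = false → n v ∈ L.Low v) (hΨ : L.sub n (L.Psi φ) ∈ L.NN)

/-- the net -/
def net : Net where
  R l := MvPolynomial (L.WV l.1) ℚ
  M := L.Tst
  P := L.P
  inc := L.inc
  rho := L.rho
  E := EL L n
  phi l := φ l.1
  z := L.zl φ
  eps := Letters.sg
  a := L.aL
  N := L.NL
  d := L.dL
  D := {h | L.sub n h ∈ Good L n φ}
  c := c
  eps_ne l := by
    unfold Letters.sg
    split_ifs <;> norm_num
  c_ne := hc
  span := L.span_inc
  inter l f h χ := by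
    change L.Ep n (L.sub n (L.inc l f * h)) χ = L.Ep n (L.sub n h) _
    rw [map_mul]
    exact L.Ep_inter n hn l f _ χ
  ker χ := L.Ep_ker n hn φ hΨ _ χ
  supp χ hχ := by
    change L.Ep n (L.sub n 1) χ = _
    rw [map_one]
    exact L.Ep_supp n hn χ hχ
  N_stab := L.NL_stab
  d_a := L.dL_aL
  im h hh k := by
    obtain ⟨G, hG⟩ := hh (L.sub n k)
    refine ⟨G, fun χ => ?_⟩
    change L.Ep n (L.sub n (h * k)) χ = _
    rw [map_mul]
    exact hG χ
  edge i x hx := L.edge_conc φ hφ i x hx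
  triv l := L.triv_conc n hn φ hφ hΨ l

include hn in
theorem kill_le : L.NN ⊔ L.II (Sum.inl 1) ⊔ L.Env ≤ Good L n φ := fun u hu k =>
  ⟨0, fun χ => by
    rw [L.Ep_kill n hn _ (Ideal.mul_mem_right k _ hu), Cl_zero, zero_apply]⟩

include hn hΨ in
theorem DD_le : L.DD φ n ≤ Good L n φ := fun _ hu k =>
  L.Ep_im n hn φ hΨ _ (Ideal.mul_mem_right k _ hu)

/-- substitution followed by the quotient map -/
def qs : L.P →+* L.P ⧸ Good L n φ :=
  (Ideal.Quotient.mk (Good L n φ)).comp (L.sub n : L.P →+* L.P)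

theorem qs_apply (h : L.P) : qs L n φ h = Ideal.Quotient.mk (Good L n φ) (L.sub n h) := rfl

theorem sub_own {v : L.Var} (hv : L.vown v = true) : L.sub n (X v) = X v := by
  rw [Letters.sub, aeval_X, if_pos hv]

include hn in
theorem mk_env {v : L.Var} (hv : L.vown v = false) :
    Ideal.Quotient.mk (Good L n φ) (X v) = 0 :=
  Ideal.Quotient.eq_zero_iff_mem.2 (kill_le L n φ hn
    (Ideal.mem_sup_right (Ideal.subset_span ⟨v, hv, rfl⟩)))

include hn in
theorem qs_surj : Function.Surjective (qs L n φ) := by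
  intro y
  obtain ⟨p, rfl⟩ := Ideal.Quotient.mk_surjective y
  induction p using MvPolynomial.induction_on with
  | C a => exact ⟨C a, by rw [qs_apply, ← algebraMap_eq, AlgHom.commutes]⟩
  | add p q hp hq =>
    obtain ⟨p', hp'⟩ := hp
    obtain ⟨q', hq'⟩ := hq
    exact ⟨p' + q', by rw [map_add, map_add, hp', hq']⟩
  | mul_X p v hp =>
    obtain ⟨p', hp'⟩ := hp
    cases hv : L.vown v
    · exact ⟨0, by rw [map_zero, map_mul, mk_env L n φ hn hv, mul_zero]⟩
    · exact ⟨p' * X v, by rw [map_mul, map_mul, hp', qs_apply, sub_own L n hv]⟩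

/-- the ideal of all variables, as in the net -/
def AA0 : Ideal L.P := ⨆ l : Lg, (L.aL l).map (L.inc l)

/-- the matrices of the net -/
def zM0 (l : Lg) : M2 L.P := fun a b => L.inc l (L.zl φ l (a, b))

/-- the ideals of the net -/
def ZZ0 (i : Kl) : Ideal L.P := Ideal.span {f | ∃ s a b, f = zM0 L φ (i, s) a b}

/-- the combined matrices of the net -/
def zeta0 (i : Kl) : M2 L.P :=
  c (i, true) • zM0 L φ (i, true) + c (i, false) • zM0 L φ (i, false)

include hn in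
theorem AA_le : (L.AA).map (Ideal.Quotient.mk (Good L n φ)) ≤ (AA0 L).map (qs L n φ) := by
  rw [Ideal.map_le_iff_le_comap, Letters.AA, Ideal.span_le]
  rintro _ ⟨v, rfl⟩
  rw [SetLike.mem_coe, Ideal.mem_comap]
  cases hv : L.vown v
  · rw [mk_env L n φ hn hv]
    exact Ideal.zero_mem _
  · rw [← sub_own L n hv, ← qs_apply]
    refine Ideal.mem_map_of_mem _ ?_
    have h1 : (X v : L.P) = L.inc v.1 (X v.2) := by rw [Letters.inc, rename_X]
    have h2 : L.inc v.1 (X v.2) ∈ (L.aL v.1).map (L.inc v.1) :=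
      Ideal.mem_map_of_mem _ (Ideal.subset_span ⟨v.2, rfl⟩)
    rw [h1]
    exact (le_iSup (fun l : Lg => (L.aL l).map (L.inc l)) v.1) h2

theorem ZZ_le (i : Kl) : (L.ZZ φ n i).map (Ideal.Quotient.mk (Good L n φ)) ≤
    (ZZ0 L φ i).map (qs L n φ) := by
  rw [Ideal.map_le_iff_le_comap, Letters.ZZ, Ideal.span_le]
  rintro _ ⟨s, a, b, rfl⟩
  rw [SetLike.mem_coe, Ideal.mem_comap]
  exact Ideal.mem_map_of_mem (qs L n φ) (x := zM0 L φ (i, s) a b)
    (Ideal.subset_span ⟨s, a, b, rfl⟩)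

theorem zeta_eq (i : Kl) : (L.sub n).mapMatrix (zeta0 L φ c i) = L.zeta φ n c i := by
  refine Matrix.ext fun a b => ?_
  change L.sub n (c (i, true) • L.inc (i, true) (L.zl φ (i, true) (a, b)) +
    c (i, false) • L.inc (i, false) (L.zl φ (i, false) (a, b))) = _
  rw [map_add, map_smul, map_smul]
  rfl

include hn hΨ in
theorem pull_back (a b : Fin 2)
    (h : (lbK (L.zeta φ n c) : M2 L.P) a b ∈
      L.AA * prK (L.ZZ φ n) ⊔ L.DD φ n ⊔ L.II (Sum.inl 1) ⊔ L.NN) :
    (lbK (zeta0 L φ c) : M2 L.P) a b ∈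
      AA0 L * prK (ZZ0 L φ) ⊔ Ideal.span {h | L.sub n h ∈ Good L n φ} := by
  set Y : M2 L.P := lbK (zeta0 L φ c) with hY
  have h1 : L.sub n (Y a b) = (lbK (L.zeta φ n c) : M2 L.P) a b := by
    rw [← funext (zeta_eq L n φ c), ← map_lbK]
    rfl
  have hb : ∀ I : Ideal L.P, I ≤ Good L n φ → ∀ J : Ideal (L.P ⧸ Good L n φ),
      I.map (Ideal.Quotient.mk (Good L n φ)) ≤ J := fun I hI J =>
    (Ideal.map_mono hI).trans (by rw [Ideal.map_quotient_self]; exact bot_le)
  have hk := kill_le L n φ hn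
  have h2 : (L.AA * prK (L.ZZ φ n) ⊔ L.DD φ n ⊔ L.II (Sum.inl 1) ⊔
      L.NN).map (Ideal.Quotient.mk (Good L n φ)) ≤
      (AA0 L * prK (ZZ0 L φ)).map (qs L n φ) := by
    rw [Ideal.map_sup, Ideal.map_sup, Ideal.map_sup]
    refine sup_le (sup_le (sup_le ?_ (hb _ (DD_le L n φ hn hΨ) _))
      (hb _ ((le_sup_right.trans le_sup_left).trans hk) _))
      (hb _ ((le_sup_left.trans le_sup_left).trans hk) _)
    rw [Ideal.map_mul, Ideal.map_mul, map_prK, map_prK]
    exact Ideal.mul_mono (AA_le L n φ hn) (prK_mono (ZZ_le L n φ))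
  have h3 : Y a b ∈ Ideal.comap (qs L n φ)
      ((AA0 L * prK (ZZ0 L φ)).map (qs L n φ)) := by
    rw [Ideal.mem_comap, qs_apply, h1]
    exact h2 (Ideal.mem_map_of_mem _ h)
  rw [Ideal.comap_map_of_surjective _ (qs_surj L n φ hn)] at h3
  have h5 : Ideal.comap (qs L n φ) ⊥ ≤ Ideal.span {h | L.sub n h ∈ Good L n φ} := by
    intro u hu
    refine Ideal.subset_span ?_
    have h4 : qs L n φ u = 0 := hu
    exact Ideal.Quotient.eq_zero_iff_mem.1 h4
  exact SetLike.le_def.1 (sup_le_sup_left h5 _) h3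

end K6

theorem Letters.not_geo (L : Letters) : ¬ L.Geo := by
  rintro ⟨φ, n, c, hφ, hc, hn, hΨ, h⟩
  exact (K6.net L n φ c hφ hc hn hΨ).false_of fun a b => K6.pull_back L n φ c hn hΨ a b (h a b)

end Vale.Agent.P215Z.K
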