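import Vale.Agent.P260Z.Ob.Core.Defs
import Vale.Agent.P260Z.Ob.Lb
import Vale.Agent.P215Z.Core.Lef

/-! K3: the abstract contradiction -/

noncomputable section
set_option linter.unusedSectionVars false
variable [Vale.Agent.P215Z.K.Geom]
namespace Vale.Agent.P215Z.K

namespace NetF

/-! ### matrices of degree two -/

theorem lie_apply {R : Type} [CommRing R] (A B : M2 R) (a b : Fin 2) :
    ⁅A, B⁆ a b = ∑ j, (A a j * B j b - B a j * A j b) := by
  rw [Ring.lie_def, Matrix.sub_apply, Matrix.mul_apply, Matrix.mul_apply, Finset.sum_sub_distrib]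

/-- not a scalar matrix -/
def NS (η : M2 ℚ) : Prop := ¬ (η 0 0 - η 1 1 = 0 ∧ η 0 1 = 0 ∧ η 1 0 = 0)

/-- the set is not contained in the centraliser of a matrix which is not scalar -/
def Big (X : Set (M2 ℚ)) : Prop := ∀ η, NS η → ∃ ξ ∈ X, ⁅η, ξ⁆ ≠ 0

theorem ad_ad {η θ : M2 ℚ} (hη : NS η) (hθ : NS θ) : ∃ y : M2 ℚ, ⁅θ, ⁅η, y⁆⁆ ≠ 0 := by
  by_contra h
  have h0 : ∀ (y : M2 ℚ) (a b : Fin 2), ⁅θ, ⁅η, y⁆⁆ a b = 0 := fun y a b => by
    have h1 : ⁅θ, ⁅η, y⁆⁆ = 0 := by
      by_contra h2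
      exact h ⟨y, h2⟩
    rw [h1]
    rfl
  have a1 := h0 !![1, 0; 0, 0] 0 0
  have a2 := h0 !![1, 0; 0, 0] 0 1
  have a3 := h0 !![1, 0; 0, 0] 1 0
  have b1 := h0 !![0, 1; 0, 0] 0 0
  have b2 := h0 !![0, 1; 0, 0] 0 1
  have b3 := h0 !![0, 1; 0, 0] 1 0
  have c1 := h0 !![0, 0; 1, 0] 0 0
  have c2 := h0 !![0, 0; 1, 0] 0 1
  have c3 := h0 !![0, 0; 1, 0] 1 0
  simp only [lie_apply, Fin.sum_univ_two, Matrix.of_apply, Matrix.cons_val', Matrix.cons_val_zero,
    Matrix.cons_val_one, Matrix.cons_val_fin_one] at a1 a2 a3 b1 b2 b3 c1 c2 c3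
  have key : ∀ u : ℚ, u * (θ 0 0 - θ 1 1) = 0 → u * θ 0 1 = 0 → u * θ 1 0 = 0 → u = 0 := by
    intro u h1 h2 h3
    by_contra h4
    exact hθ ⟨(mul_eq_zero.1 h1).resolve_left h4, (mul_eq_zero.1 h2).resolve_left h4,
      (mul_eq_zero.1 h3).resolve_left h4⟩
  exact hη ⟨key _ (by linarith) (by linarith) (by linarith),
    key _ (by linarith) (by linarith) (by linarith), key _ (by linarith) (by linarith) (by linarith)⟩

theorem big_or {U V : Set (M2 ℚ)}
    (h : ∀ x : M2 ℚ, (∀ ξ ∈ U, Matrix.trace (x * ξ) = 0) → x ∈ V) : Big V ∨ Big U := by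
  by_contra h1
  rw [not_or] at h1
  obtain ⟨h2, h3⟩ := h1
  simp only [Big, not_forall, not_exists, not_and, not_not] at h2 h3
  obtain ⟨θ, hθ, h2⟩ := h2
  obtain ⟨η, hη, h3⟩ := h3
  obtain ⟨y, hy⟩ := ad_ad hη hθ
  refine hy (h2 _ (h _ fun ξ hξ => ?_))
  have h4 := h3 ξ hξ
  rw [Ring.lie_def, sub_eq_zero] at h4
  rw [Ring.lie_def, sub_mul, Matrix.trace_sub, mul_assoc y, h4, ← mul_assoc,
    Matrix.trace_mul_comm (y * ξ), mul_assoc, sub_self]

theorem NS.lie {x y : M2 ℚ} (h2 : ⁅x, y⁆ ≠ 0) : NS ⁅x, y⁆ := by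
  rintro ⟨h3, h4, h5⟩
  apply h2
  have h6 : ⁅x, y⁆ 0 0 + ⁅x, y⁆ 1 1 = 0 := by
    simp only [lie_apply, Fin.sum_univ_two]
    ring
  ext a b
  fin_cases a <;> fin_cases b
  · change ⁅x, y⁆ 0 0 = 0
    linarith
  · exact h4
  · exact h5
  · change ⁅x, y⁆ 1 1 = 0
    linarith

theorem exists_seq {X : ℕ → Set (M2 ℚ)} (h : ∀ i, Big (X i)) (j : ℕ) :
    ∃ ξ : ℕ → M2 ℚ, (∀ i ≤ j, ξ i ∈ X i) ∧ NS (lb ξ j) := by
  induction j with
  | zero =>
    obtain ⟨x, hx, h0⟩ := h 0 !![1, 0; 0, 0] (by simp [NS])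
    refine ⟨fun _ => x, fun i hi => by rwa [Nat.le_zero.1 hi], ?_⟩
    rintro ⟨-, h2, h3⟩
    apply h0
    change x 0 1 = 0 at h2
    change x 1 0 = 0 at h3
    ext a b
    fin_cases a <;> fin_cases b <;> simp [lie_apply, h2, h3]
  | succ j ih =>
    obtain ⟨ξ, h1, h2⟩ := ih
    obtain ⟨y, hy, h3⟩ := h (j + 1) _ h2
    refine ⟨Function.update ξ (j + 1) y, fun i hi => ?_, ?_⟩
    · by_cases e : i = j + 1
      · rwa [e, Function.update_self]
      · rw [Function.update_of_ne e]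
        exact h1 i (by omega)
    · rw [lb, Function.update_self, lb_congr (z' := ξ) fun i hi =>
        Function.update_of_ne (by omega) _ _]
      exact NS.lie h3

/-- the colours of the root word -/
def Used (i : Kl) : Prop := ∃ j ≤ Geom.r, cl j = i

theorem exists_inv : ∃ v : Kl → ℕ, ∀ j ≤ Geom.r, v (cl j) = j := by
  have h : ∀ i : Kl, ∃ v : ℕ, ∀ j ≤ Geom.r, cl j = i → v = j := fun i => by
    by_cases h : Used i
    · obtain ⟨j, h1, rfl⟩ := h
      exact ⟨j, fun k h2 h3 => (cl_inj h2 h1 h3).symm⟩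
    · exact ⟨0, fun j h1 h2 => absurd ⟨j, h1, h2⟩ h⟩
  choose v hv using h
  exact ⟨v, fun j hj => hv _ j hj rfl⟩

theorem exists_triple {X : Kl → Set (M2 ℚ)} (h : ∀ i, Big (X i)) :
    ∃ ξ : Kl → M2 ℚ, (∀ i, Used i → ξ i ∈ X i) ∧ lbK ξ ≠ 0 := by
  obtain ⟨ξ, h1, h2⟩ := exists_seq (fun j => h (cl j)) Geom.r
  obtain ⟨v, hv⟩ := exists_inv
  refine ⟨fun i => ξ (v i), ?_, fun h3 => h2 ?_⟩
  · rintro _ ⟨j, hj, rfl⟩
    simp only [hv j hj]
    exact h1 j hj
  · rw [lbK, lb_congr (z' := ξ) fun i hi => by rw [hv i hi]] at h3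
    rw [h3]
    simp

theorem lb_smul (c : ℕ → ℚ) (ξ : ℕ → M2 ℚ) (j : ℕ) :
    lb (fun i => c i • ξ i) j = (∏ i ∈ Finset.range (j + 1), c i) • lb ξ j := by
  induction j with
  | zero => simp [lb]
  | succ j ih =>
    rw [lb, lb, ih, Finset.prod_range_succ _ (j + 1), Ring.lie_def, Ring.lie_def, smul_mul_smul_comm,
      smul_mul_smul_comm, mul_comm (c (j + 1)), smul_sub]

theorem lb_mem {R : Type} [CommRing R] [Algebra ℚ R] (S : ℕ → Submodule ℚ R) (z : ℕ → M2 R)
    (h : ∀ i a b, z i a b ∈ S i) (j : ℕ) :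
    ∀ a b, lb z j a b ∈ ∏ i ∈ Finset.range (j + 1), S i := by
  induction j with
  | zero => simpa [lb] using h 0
  | succ j ih =>
    intro a b
    rw [lb, lie_apply, Finset.prod_range_succ]
    refine Submodule.sum_mem _ fun k _ => sub_mem (Submodule.mul_mem_mul (ih _ _) (h _ _ _)) ?_
    rw [mul_comm (z (j + 1) a k)]
    exact Submodule.mul_mem_mul (ih _ _) (h _ _ _)

/-! ### the functionals -/

variable (n : Net)

/-- the operators of the legs -/
abbrev tt (l : Lg) : Module.End ℚ (n.M l) := n.rho l (n.phi l)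

theorem comm (l : Lg) (f : n.R l) : Commute (tt n l) (n.rho l f) :=
  (Commute.all (n.phi l) f).map (n.rho l)

theorem prod_inter (T : Finset Lg) (f : ∀ l, n.R l) (k : n.P) (χ : ∀ l, n.M l) :
    n.E ((∏ l ∈ T, n.inc l (f l)) * k) χ =
      n.E k (T.piecewise (fun l => n.rho l (f l) (χ l)) χ) := by
  induction T using Finset.induction_on generalizing k with
  | empty => rw [Finset.prod_empty, one_mul, Finset.piecewise_empty]
  | insert i T hi ih =>
    rw [Finset.prod_insert hi, mul_comm (n.inc i (f i)), mul_assoc, ih, n.inter,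
      Finset.piecewise_insert, Finset.piecewise_eq_of_notMem _ _ _ hi]

theorem prod_univ (f : ∀ l, n.R l) (χ : ∀ l, n.M l) :
    n.E (∏ l, n.inc l (f l)) χ = n.E 1 fun l => n.rho l (f l) (χ l) := by
  have h := prod_inter n Finset.univ f 1 χ
  rwa [mul_one, Finset.piecewise_univ] at h

theorem ind {p : n.P → Prop} (h0 : p 0) (ha : ∀ x y, p x → p y → p (x + y))
    (hs : ∀ (c : ℚ) x, p x → p (c • x)) (hm : ∀ f : ∀ l, n.R l, p (∏ l, n.inc l (f l)))
    (k : n.P) : p k := by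
  have h : k ∈ Submodule.span ℚ {h | ∃ f : ∀ l, n.R l, h = ∏ l, n.inc l (f l)} := by
    rw [n.span]
    exact Submodule.mem_top
  induction h using Submodule.span_induction with
  | mem x hx =>
    obtain ⟨f, rfl⟩ := hx
    exact hm f
  | zero => exact h0
  | add x y _ _ hx hy => exact ha x y hx hy
  | smul c x _ hx => exact hs c x hx

theorem ker_all (k : n.P) (χ : ∀ l, n.M l) : Cl (tt n) n.eps (n.E k) χ = 0 := by
  induction k using ind n with
  | h0 => simp [Cl]
  | ha x y hx hy =>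
    rw [← add_zero (0 : ℚ)]
    nth_rewrite 1 [← hx]
    rw [← hy]
    simp only [Cl, map_add, add_apply, mul_add, Finset.sum_add_distrib]
  | hs c x hx =>
    rw [← mul_zero c, ← hx]
    simp only [Cl, map_smul, smul_apply, smul_eq_mul, Finset.mul_sum]
    exact Finset.sum_congr rfl fun i _ => by ring
  | hm f =>
    rw [← n.ker fun l => n.rho l (f l) (χ l)]
    refine Finset.sum_congr rfl fun i _ => ?_
    rw [prod_univ]
    congr 2
    funext l
    by_cases h : l = i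
    · subst h
      rw [Function.update_self, Function.update_self]
      exact DFunLike.congr_fun (comm n l (f l)).eq.symm (χ l)
    · rw [Function.update_of_ne h, Function.update_of_ne h]

theorem kill_a {ψ : ∀ l, n.M l} (hψ : ∀ l, ψ l ∈ n.N l) {r : n.P} (hr : r ∈ n.AA) (k : n.P) :
    n.E (r * k) ψ = 0 := by
  let K : Ideal n.P :=
    { carrier := {r | ∀ k, n.E (r * k) ψ = 0}
      add_mem' := fun {x y} hx hy k => by
        rw [add_mul, map_add, add_apply, hx k, hy k, add_zero]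
      zero_mem' := fun k => by rw [zero_mul, map_zero, zero_apply]
      smul_mem' := fun c x hx k => by rw [smul_eq_mul, mul_comm c, mul_assoc, hx] }
  have h : n.AA ≤ K := by
    refine iSup_le fun l => Ideal.map_le_iff_le_comap.2 fun a ha k => ?_
    induction k using ind n with
    | h0 => rw [mul_zero, map_zero, zero_apply]
    | ha x y hx hy => rw [mul_add, map_add, add_apply, hx, hy, add_zero]
    | hs c x hx => rw [mul_smul_comm, map_smul, smul_apply, hx, smul_zero]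
    | hm f =>
      rw [n.inter, prod_univ, n.supp]
      · refine Finset.prod_eq_zero (Finset.mem_univ l) ?_
        rw [Function.update_self, ← Module.End.mul_apply, ← map_mul]
        exact n.d_a l _ ((n.a l).mul_mem_left _ ha) _ (hψ l)
      · intro j
        refine n.N_stab j _ _ ?_
        by_cases h : j = l
        · subst h
          rw [Function.update_self]
          exact n.N_stab j _ _ (hψ j)
        · rw [Function.update_of_ne h]
          exact hψ j
  exact h hr k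

/-- a system of tests -/
structure Tests (s : Kl → Bool) (ξ : Kl → M2 ℚ) (χ : ∀ l, n.M l) (y : ∀ l, I2 → n.M l) :
    Prop where
  w0 : ∀ l, χ l ∈ W0 (tt n l)
  w1 : ∀ l b, y l b - n.rho l (n.z l b) (χ l) ∈ W1 (tt n l)
  on : ∀ l : Lg, Used l.1 ∧ l.2 = s l.1 → ∀ b, y l b ∈ n.N l ∧ n.d l (y l b) = ξ l.1 b.1 b.2
  off : ∀ l : Lg, ¬ (Used l.1 ∧ l.2 = s l.1) → χ l ∈ n.N l ∧ n.d l (χ l) = 1 ∧ ∀ b, y l b = 0

theorem exists_tests : ∃ s ξ χ y, Tests n s ξ χ y ∧ lbK ξ ≠ 0 := by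
  let X : Lg → Set (M2 ℚ) := fun l =>
    Xi (tt n l) (fun b => n.rho l (n.z l b)) (n.N l) (n.d l)
  have h1 : ∀ i : Kl, ∃ s : Bool, Big (X (i, s)) := fun i =>
    (big_or (n.edge i)).elim (fun h => ⟨true, h⟩) fun h => ⟨false, h⟩
  choose s hs using h1
  obtain ⟨ξ, hξ, h0⟩ := exists_triple hs
  have h2 : ∀ l : Lg, ∃ (χ : n.M l) (y : I2 → n.M l), χ ∈ W0 (tt n l) ∧
      (∀ b, y b - n.rho l (n.z l b) χ ∈ W1 (tt n l)) ∧
      (Used l.1 ∧ l.2 = s l.1 → ∀ b, y b ∈ n.N l ∧ n.d l (y b) = ξ l.1 b.1 b.2) ∧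
      (¬ (Used l.1 ∧ l.2 = s l.1) → χ ∈ n.N l ∧ n.d l χ = 1 ∧ ∀ b, y b = 0) := by
    rintro ⟨i, t⟩
    by_cases h : Used i ∧ t = s i
    · obtain ⟨hu, rfl⟩ := h
      obtain ⟨χ, h3, ω, h4⟩ := hξ i hu
      refine ⟨χ, fun b => n.rho _ (n.z _ b) χ + ω b, h3, fun b => ?_, fun _ b => (h4 b).2,
        fun h5 => absurd ⟨hu, rfl⟩ h5⟩
      rw [add_sub_cancel_left]
      exact (h4 b).1
    · obtain ⟨χ, h3, h4, h5, h6⟩ := n.triv (i, t)
      refine ⟨χ, fun _ => 0, ker_le_W0 _ h4, fun b => ?_, fun h7 => absurd h7 h,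
        fun _ => ⟨h3, h5, fun _ => rfl⟩⟩
      rw [zero_sub]
      exact neg_mem (h6 b)
  choose χ y h3 h4 h5 h6 using h2
  exact ⟨s, ξ, χ, y, ⟨h3, h4, h5, h6⟩, h0⟩

variable {n} {s : Kl → Bool} {ξ : Kl → M2 ℚ} {χ : ∀ l, n.M l} {y : ∀ l, I2 → n.M l}

theorem Tests.y0 (h : Tests n s ξ χ y) (l : Lg) (b : I2) : y l b ∈ W0 (tt n l) := by
  have h1 := add_mem (W1_le_W0 _ (h.w1 l b)) (W0_stab (comm n l (n.z l b)) (h.w0 l))
  rwa [sub_add_cancel] at h1

theorem Tests.red (h : Tests n s ξ χ y) (T : Finset Lg) (b : Lg → I2) (k : n.P) :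
    n.E ((∏ l ∈ T, n.inc l (n.z l (b l))) * k) χ =
      n.E k (T.piecewise (fun l => y l (b l)) χ) := by
  induction T using Finset.induction_on generalizing k with
  | empty => rw [Finset.prod_empty, one_mul, Finset.piecewise_empty]
  | insert i T hi ih =>
    rw [Finset.prod_insert hi, mul_comm (n.inc i _), mul_assoc, ih, n.inter,
      Finset.piecewise_insert, Finset.piecewise_eq_of_notMem _ _ _ hi, eq_comm, ← sub_eq_zero,
      ← MultilinearMap.map_update_sub]
    refine lef_one (tt n) n.eps n.eps_ne _ (ker_all n k) _ (fun l => ?_) i ?_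
    · by_cases h1 : l = i
      · subst h1
        rw [Function.update_self]
        exact W1_le_W0 _ (h.w1 l _)
      · rw [Function.update_of_ne h1]
        by_cases h2 : l ∈ T
        · rw [Finset.piecewise_eq_of_mem _ _ _ h2]
          exact h.y0 l _
        · rw [Finset.piecewise_eq_of_notMem _ _ _ h2]
          exact h.w0 l
    · rw [Function.update_self]
      exact h.w1 i _

/-- the legs chosen by `σ` -/
def legs (σ : Kl → Bool) : Finset Lg :=
  (Finset.range (Geom.r + 1)).image fun j => (cl j, σ (cl j))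

theorem mem_legs {σ : Kl → Bool} {l : Lg} : l ∈ legs σ ↔ Used l.1 ∧ l.2 = σ l.1 := by
  rw [legs, Finset.mem_image]
  constructor
  · rintro ⟨i, h, rfl⟩
    exact ⟨⟨i, Nat.lt_succ_iff.1 (Finset.mem_range.1 h), rfl⟩, rfl⟩
  · rintro ⟨⟨j, h1, h2⟩, h⟩
    exact ⟨j, Finset.mem_range.2 (Nat.lt_succ_iff.2 h1), Prod.ext h2 (by rw [h, h2])⟩

theorem prod_legs {R : Type} [CommMonoid R] (σ : Kl → Bool) (f : Lg → R) :
    ∏ l ∈ legs σ, f l = prK fun i => f (i, σ i) := by
  rw [legs, Finset.prod_image fun i hi j hj h => cl_inj (Nat.lt_succ_iff.1 (Finset.mem_range.1 hi))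
    (Nat.lt_succ_iff.1 (Finset.mem_range.1 hj)) (congrArg Prod.fst h)]
  rfl

theorem Tests.eval (h : Tests n s ξ χ y) (σ : Kl → Bool) (b : Kl → I2) :
    n.E (prK fun i => n.inc (i, σ i) (n.z _ (b i))) χ =
      (prK fun i => if σ i = s i then ξ i (b i).1 (b i).2 else 0) ∧
    ∀ r ∈ n.AA, ∀ k, n.E ((prK fun i => n.inc (i, σ i) (n.z _ (b i))) * (r * k)) χ = 0 := by
  have h1 := h.red (legs σ) fun l => b l.1
  rw [prod_legs] at h1
  have h2 := h1 1
  rw [mul_one] at h2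
  rw [h2]
  simp only [h1]
  by_cases h3 : ∀ i, Used i → σ i = s i
  · have h6 : ∀ {l}, l ∈ legs σ ↔ Used l.1 ∧ l.2 = s l.1 :=
      mem_legs.trans (and_congr_right fun hu => by rw [h3 _ hu])
    have h4 : ∀ l, (legs σ).piecewise (fun l => y l (b l.1)) χ l ∈ n.N l := by
      intro l
      by_cases h5 : l ∈ legs σ
      · rw [Finset.piecewise_eq_of_mem _ _ _ h5]
        exact (h.on l (h6.1 h5) _).1
      · rw [Finset.piecewise_eq_of_notMem _ _ _ h5]
        exact (h.off l fun h7 => h5 (h6.2 h7)).1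
    refine ⟨?_, fun r hr k => kill_a n h4 hr k⟩
    rw [n.supp _ h4, ← prod_legs σ fun l => if σ l.1 = s l.1 then ξ l.1 (b l.1).1 (b l.1).2 else 0]
    refine (Finset.prod_subset (Finset.subset_univ (legs σ)) fun l _ h5 => ?_).symm.trans
      (Finset.prod_congr rfl fun l h5 => ?_)
    · rw [Finset.piecewise_eq_of_notMem _ _ _ h5]
      exact (h.off l fun h7 => h5 (h6.2 h7)).2.1
    · rw [Finset.piecewise_eq_of_mem _ _ _ h5, if_pos (h3 _ (h6.1 h5).1)]
      exact (h.on l (h6.1 h5) _).2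
  · push Not at h3
    obtain ⟨_, ⟨j, hj, rfl⟩, hi⟩ := h3
    have h4 : ∀ k, n.E k ((legs σ).piecewise (fun l => y l (b l.1)) χ) = 0 := by
      intro k
      refine MultilinearMap.map_coord_zero _ (cl j, σ (cl j)) ?_
      rw [Finset.piecewise_eq_of_mem _ _ _ (mem_legs.2 ⟨⟨j, hj, rfl⟩, rfl⟩)]
      exact (h.off (cl j, σ (cl j)) fun e => hi e.2).2.2 _
    refine ⟨?_, fun r _ k => h4 _⟩
    rw [h4]
    exact (Finset.prod_eq_zero (Finset.mem_range.2 (Nat.lt_succ_iff.2 hj)) (if_neg hi)).symm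

theorem choose_legs {α : Type} {f : Lg → I2 → α} {g : ℕ → α}
    (h : ∀ j ∈ Finset.range (Geom.r + 1), ∃ t b, g j = f (cl j, t) b) :
    ∃ (σ : Kl → Bool) (b : Kl → I2), ∀ j ∈ Finset.range (Geom.r + 1),
      g j = f (cl j, σ (cl j)) (b (cl j)) := by
  choose! t b hb using h
  obtain ⟨v, hv⟩ := exists_inv
  exact ⟨fun i => t (v i), fun i => b (v i), fun j hj => by
    simp only [hv j (Nat.lt_succ_iff.1 (Finset.mem_range.1 hj)), ← hb j hj]⟩

open Pointwise in
theorem Tests.zeta (h : Tests n s ξ χ y) (a b : Fin 2) :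
    n.E (lbK n.zeta a b) χ = (prK fun i => n.c (i, s i)) * lbK ξ a b := by
  let f : Lg → I2 → n.P × ℚ := fun l b =>
    (n.inc l (n.z l b), if l.2 = s l.1 then ξ l.1 b.1 b.2 else 0)
  let Z : Kl → M2 (n.P × ℚ) := fun i a b => (n.zeta i a b, n.c (i, s i) * ξ i a b)
  have h1 := lb_mem (fun j => Submodule.span ℚ {u | ∃ t b, u = f (cl j, t) b}) (fun j => Z (cl j))
    (fun j a b => by
      have e : Z (cl j) a b = n.c (cl j, true) • f (cl j, true) (a, b) +
          n.c (cl j, false) • f (cl j, false) (a, b) := by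
        refine Prod.ext rfl ?_
        simp only [Z, f]
        cases s (cl j) <;> simp
      rw [e]
      exact add_mem (Submodule.smul_mem _ _ (Submodule.subset_span ⟨_, _, rfl⟩))
        (Submodule.smul_mem _ _ (Submodule.subset_span ⟨_, _, rfl⟩))) Geom.r a b
  rw [Submodule.prod_span] at h1
  have h2 : ∀ u ∈ Submodule.span ℚ (∏ j ∈ Finset.range (Geom.r + 1),
      {u | ∃ t b, u = f (cl j, t) b}), n.E u.1 χ = u.2 := by
    intro u hu
    induction hu using Submodule.span_induction with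
    | mem u hu =>
      obtain ⟨g, h3, rfl⟩ := (Set.mem_finsetProd _ _ _).1 hu
      obtain ⟨σ, β, h4⟩ := choose_legs (f := f) fun j hj => h3 hj
      rw [Finset.prod_congr rfl h4, Prod.fst_prod, Prod.snd_prod]
      exact (h.eval σ β).1
    | zero => simp
    | add u v _ _ hu hv => rw [Prod.fst_add, Prod.snd_add, map_add, add_apply, hu, hv]
    | smul c u _ hu => rw [Prod.smul_fst, Prod.smul_snd, map_smul, smul_apply, hu]
  have h3 := h2 _ h1
  have e1 := congrFun₂ (map_lbK (RingHom.fst n.P ℚ).mapMatrix Z) a b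
  have e2 := congrFun₂ (map_lbK (RingHom.snd n.P ℚ).mapMatrix Z) a b
  have e3 := congrFun₂ (lb_smul (fun j => n.c (cl j, s (cl j))) (fun j => ξ (cl j)) Geom.r) a b
  exact (congrArg (n.E · χ) e1).symm.trans (h3.trans (e2.trans e3))

end NetF

open NetF in
theorem Net.false_of (n : Net)
    (h : ∀ a b, (lbK n.zeta : M2 n.P) a b ∈
      n.AA * prK n.ZZ ⊔ Ideal.span n.D) : False := by
  obtain ⟨s, ξ, χ, y, hT, h0⟩ := exists_tests n
  let K : Ideal n.P :=
    { carrier := {r | ∀ k, n.E (r * k) χ = 0}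
      add_mem' := fun {x y} hx hy k => by
        rw [add_mul, map_add, add_apply, hx k, hy k, add_zero]
      zero_mem' := fun k => by rw [zero_mul, map_zero, zero_apply]
      smul_mem' := fun c x hx k => by rw [smul_eq_mul, mul_comm c, mul_assoc, hx] }
  have h1 : Ideal.span n.D ≤ K := by
    refine Ideal.span_le.2 fun r hr k => ?_
    obtain ⟨G, hG⟩ := n.im r hr k
    exact lef_zero (tt n) n.eps n.eps_ne _ G hG (ker_all n _) χ hT.w0
  have h2 : n.AA * prK n.ZZ ≤ K := by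
    rw [prK]
    simp only [Net.ZZ]
    rw [Ideal.prod_span]
    refine Ideal.mul_le.2 fun r hr x hx => ?_
    induction hx using Submodule.span_induction with
    | mem x hx =>
      obtain ⟨g, h3, rfl⟩ := (Set.mem_finsetProd _ _ _).1 hx
      obtain ⟨σ, β, h4⟩ := choose_legs (f := fun l b => n.inc l (n.z l b)) fun j hj => by
        obtain ⟨t, a, b, e⟩ := h3 hj
        exact ⟨t, (a, b), e⟩
      intro k
      rw [← (hT.eval σ β).2 r hr k, Finset.prod_congr rfl h4, mul_comm r, mul_assoc]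
      rfl
    | zero =>
      rw [mul_zero]
      exact K.zero_mem
    | add x y _ _ hx hy =>
      rw [mul_add]
      exact K.add_mem hx hy
    | smul c x _ hx =>
      rw [smul_eq_mul, mul_left_comm]
      exact K.mul_mem_left c hx
  apply h0
  ext a b
  have h3 := sup_le h2 h1 (h a b) 1
  rw [mul_one, hT.zeta] at h3
  exact (mul_eq_zero.1 h3).resolve_left (Finset.prod_ne_zero_iff.2 fun j _ => n.c_ne _)

end Vale.Agent.P215Z.K
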